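import Vale.Agent.P268.T.H327.HPReg
import Vale.Agent.P268.T.H278.Fold

/-!
# P268, topological half: the hairpin form is of class `R`
-/

set_option linter.unusedSectionVars false

namespace Vale.Agent.P268.T

open Set Filter Topology Metric

variable {T V κ ι : Type*} [TopologicalSpace T] [NormedAddCommGroup V] [InnerProductSpace ℝ V]
  [Fintype ι] [DecidableEq ι] [Fintype κ] {s : Set T} {i₀ : ι} {e : V} {ε R M K : T → ℝ}
  {D : T → HData κ (ι → ℝ) V}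

/-- The cases at a zero: besides the slab at most one plate counts. -/
def ZeroCases (s : Set T) (i₀ : ι) (e : V) (ε R M K : T → ℝ) (D : T → HData κ (ι → ℝ) V) :
    Prop :=
  ∀ τ₀ ∈ s, ∀ x₀ : (ℝ × (ι → ℝ)) × V, x₀.1 ≠ 0 →
    gre (hplates i₀ e ε R M K D).rho τ₀ x₀ = 0 →
    (∀ X, X ≠ .slab → (hplates i₀ e ε R M K D).rho τ₀ X x₀ < 0) ∨
    ∃ X, X ≠ .slab ∧ (hplates i₀ e ε R M K D).rho τ₀ X x₀ = 0 ∧
      0 < (hplates i₀ e ε R M K D).σ τ₀ X x₀ ∧ ‖x₀.2‖ < R τ₀ * ‖x₀.1‖ ∧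
      (X = .fold → |kap x₀.1 i₀| < 1 ∧
        -(2 * (D τ₀).r0 * ‖x₀.1‖) ≤ K τ₀ * wq i₀ (D τ₀).c x₀.1) ∧
      ∀ Y, Y ≠ .slab → Y ≠ X → (hplates i₀ e ε R M K D).rho τ₀ Y x₀ < 0 ∨
        ∀ᶠ p : T × ((ℝ × (ι → ℝ)) × V) in 𝓝[s ×ˢ univ] (τ₀, x₀),
          (hplates i₀ e ε R M K D).rho p.1 Y p.2 ≤ (hplates i₀ e ε R M K D).rho p.1 X p.2

/-- The directions of the fold plate. -/
def FoldDirs (s : Set T) (i₀ : ι) (e : V) (ε R M K : T → ℝ) (D : T → HData κ (ι → ℝ) V) :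
    Prop :=
  ∀ τ₀ ∈ s, ∀ x₀ : (ℝ × (ι → ℝ)) × V, x₀.1 ≠ 0 → ∀ (us : ℝ × (ι → ℝ)) (δ : ℝ),
    HDir i₀ x₀.1 us δ → 0 ≤ δ → δ * R τ₀ ≤ 1 / 64 → |kap x₀.1 i₀| < 1 →
    (∀ ς : ℝ, (ς = 1 ∨ ς = -1) →
      0 < ς * inner ℝ (x₀.2 - ‖x₀.1‖ • (D τ₀).m (wl i₀ (D τ₀).c (kap x₀.1)))
        ((D τ₀).ph (wl i₀ (D τ₀).c (kap x₀.1))) →
      -(3 * (D τ₀).r0 * ‖x₀.1‖) < K τ₀ * wq i₀ (D τ₀).c x₀.1 →
      SheetDir s τ₀ x₀ (fun τ x => (hplates i₀ e ε R M K D).w τ .fold x)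
        (fun τ x => (hplates i₀ e ε R M K D).ν τ .fold x)
        (fun τ x => (hplates i₀ e ε R M K D).r τ .fold x)
        (layD (ℝ × (ι → ℝ)) ς ((D τ₀).ph (wl i₀ (D τ₀).c (kap x₀.1)))) (us, (0 : V))) ∧
    (-((D τ₀).r0 * ‖x₀.1‖) < K τ₀ * wq i₀ (D τ₀).c x₀.1 →
      SheetDir s τ₀ x₀ (fun τ x => (hplates i₀ e ε R M K D).w τ .fold x)
        (fun τ x => (hplates i₀ e ε R M K D).ν τ .fold x)
        (fun τ x => (hplates i₀ e ε R M K D).r τ .fold x)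
        (tipD ((0 : ℝ), (Pi.single i₀ (1 / K τ₀) : ι → ℝ))
          ((D τ₀).ph (wl i₀ (D τ₀).c (kap x₀.1)))) (us, (0 : V)))

theorem foldw_inner {z : ℝ} {ph y : V} (hp : ‖ph‖ = 1) :
    inner ℝ (foldw z ph y) ph = |inner ℝ y ph| + z := by
  unfold foldw
  rw [inner_add_left, real_inner_smul_left, real_inner_self_eq_norm_sq, hp]
  ring

/-- Regularity at the zeros. -/
theorem hplates_regAt (cε : ContinuousOn ε s) (cR : ContinuousOn R s)
    (cM : ContinuousOn M s) (cK : ContinuousOn K s) (hD : HPFam s i₀ e D) (he : ‖e‖ = 1)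
    (hA : ∀ τ ∈ s, HAdm i₀ (ε τ) (R τ) (M τ) (K τ) (D τ))
    {η : ℝ} (G : Glue s η (fun x => ‖x.1‖) (hplates i₀ e ε R M K D).rho
      (hplates i₀ e ε R M K D).be)
    (HZ : ZeroCases s i₀ e ε R M K D) (HF : FoldDirs s i₀ e ε R M K D)
    {τ₀ : T} (hτ₀ : τ₀ ∈ s) {x₀ : (ℝ × (ι → ℝ)) × V} (hx₀ : x₀.1 ≠ 0)
    (h0 : gre (hplates i₀ e ε R M K D).rho τ₀ x₀ = 0)
    (hb : ∀ a, (hplates i₀ e ε R M K D).rho τ₀ a x₀ = 0 →
      (hplates i₀ e ε R M K D).be τ₀ a x₀ = 0) :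
    RegAt s ((hplates i₀ e ε R M K D).fn η (fun x => ‖x.1‖)) τ₀ x₀ := by
  have hadm := hA τ₀ hτ₀
  have hεp := hadm.hε
  have hRp : 0 < R τ₀ := hεp.trans_le hadm.hR
  have hMp : 0 < M τ₀ := by have := hadm.hM; linarith
  have hg : 0 < ‖x₀.1‖ := norm_pos_iff.mpr hx₀
  have hc := hD.hc τ₀ hτ₀
  have hKp := hadm.hK
  have hrp := hD.hr τ₀ hτ₀
  rcases HZ τ₀ hτ₀ x₀ hx₀ h0 with hS | ⟨X, hX, hX0, hσX, hv, hXf, hdom⟩
  · -- only the slab
    refine single_regAt cε cR cM cK hD he G hτ₀ hx₀ hRp hadm.hM h0 ?_ hS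
    obtain ⟨a, ha⟩ := exists_gre (hplates i₀ e ε R M K D).rho τ₀ x₀
    have ha0 : (hplates i₀ e ε R M K D).rho τ₀ a x₀ = 0 := by rw [← ha, h0]
    have ha1 : a = .slab := by
      by_contra hne
      exact absurd ha0 (hS a hne).ne
    rw [ha1] at ha0
    exact hb .slab ha0
  · obtain ⟨us, δ, hδ0, hδ1, HD, HS⟩ := exists_dir327 i₀ hx₀ hRp
    -- the front of the slab
    have hfront : (hplates i₀ e ε R M K D).σ τ₀ .slab x₀ = 0 → ‖x₀.1.2‖ = |x₀.1.1| ∧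
        ‖kap x₀.1‖ = 1 ∧ 1 / 2 ≤ M τ₀ * δ := by
      intro h1
      have h2 : M τ₀ * (‖x₀.1.2‖ - |x₀.1.1|) = 0 := h1
      have h3 : ‖x₀.1.2‖ = |x₀.1.1| := by
        have := (mul_eq_zero.mp h2).resolve_left hMp.ne'
        linarith
      refine ⟨h3, ?_, ?_⟩
      · apply norm_kap_of_le
        · rw [← h3]; linarith [norm_nonneg x₀.1.2]
        · intro h4
          apply hx₀
          rw [h4, norm_zero] at h3
          exact Prod.ext (abs_eq_zero.mp h3.symm) h4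
      · have h4 := (HS h3).2
        have h5 : 32 * R τ₀ * δ ≤ M τ₀ * δ := mul_le_mul_of_nonneg_right hadm.hM hδ0
        linarith
    have hk1 := norm_kap_le x₀.1
    match X, hX, hX0, hσX, hXf, hdom with
    | .sh a, hX, hX0, hσX, _, hdom =>
      have hcen : ‖(D τ₀).cen i₀ a (kap x₀.1)‖ + 2 * ε τ₀ < R τ₀ := hadm.hb a _ (kap_mem _)
      have h1 : δ * ‖(D τ₀).cen i₀ a (kap x₀.1)‖ ≤ δ * R τ₀ :=
        mul_le_mul_of_nonneg_left (by linarith) hδ0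
      have h2 : δ * ε τ₀ ≤ δ * R τ₀ := mul_le_mul_of_nonneg_left hadm.hR hδ0
      refine pair_regAt (δ := δ) cε cR cM cK hD he G hτ₀ hx₀ hεp h0 hX hX0 hσX (hb _ hX0) hv hdom
        (sh_sheetDir cε hD hτ₀ hx₀ hεp a HD (by linarith) (by linarith)) ?_
      intro h3
      obtain ⟨k1, k2, k3⟩ := hfront h3
      refine ⟨?_, fun v => by simp, k3, (HS k1).1.slab fun v => by simp⟩
      have hlf : ∀ b : Bool, a = .inr b → kap x₀.1 i₀ ≤ (D τ₀).c := by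
        intro b hab
        subst hab
        have h4 : 0 < min (M τ₀ * (x₀.1.1 - ‖x₀.1.2‖ / 2))
          (M τ₀ * (-(K τ₀ * wq i₀ (D τ₀).c x₀.1) - 2 * (D τ₀).r0 * ‖x₀.1‖)) := hσX
        have h5 := (lt_min_iff.mp h4).2
        have h6 : 0 < -(K τ₀ * wq i₀ (D τ₀).c x₀.1) - 2 * (D τ₀).r0 * ‖x₀.1‖ :=
          (mul_pos_iff_of_pos_left hMp).mp h5
        have h7 : 0 ≤ 2 * (D τ₀).r0 * ‖x₀.1‖ := by positivity
        have h8 : K τ₀ * wq i₀ (D τ₀).c x₀.1 < 0 := by linarith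
        have h9 : wq i₀ (D τ₀).c x₀.1 < 0 := by
          by_contra h10
          exact absurd h8 (not_lt.mpr (mul_nonneg hKp.le (not_lt.mp h10)))
        rw [wq_eq hx₀] at h9
        have h10 := gmax_pos hx₀
        by_contra h11
        have : 0 ≤ (kap x₀.1 i₀ - (D τ₀).c) * (gmax x₀.1 / 2) :=
          mul_nonneg (by linarith [not_le.mp h11]) (by positivity)
        linarith
      match a with
      | .inl a => exact hD.oth.nh τ₀ hτ₀ a _ k2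
      | .inr true =>
        show (D τ₀).nk (lf i₀ (D τ₀).c (kap x₀.1)) = e
        rw [lf_of_le (hlf true rfl)]
        exact (hD.hbk τ₀ hτ₀ _ k2 (hlf true rfl)).2
      | .inr false =>
        show (D τ₀).nt (lf i₀ (D τ₀).c (kap x₀.1)) = e
        rw [lf_of_le (hlf false rfl)]
        exact (hD.hbt τ₀ hτ₀ _ k2 (hlf false rfl)).2
    | .fold, hX, hX0, hσX, hXf, hdom =>
      obtain ⟨hk, hwq⟩ := hXf rfl
      set ph₀ := (D τ₀).ph (wl i₀ (D τ₀).c (kap x₀.1)) with hph₀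
      have hph1 : ‖ph₀‖ = 1 := hD.nph τ₀ hτ₀ _ (wl_mem hc.le hk1) (wl_apply _ _ _)
      have hphe : (hplates i₀ e ε R M K D).σ τ₀ .slab x₀ = 0 → inner ℝ ph₀ e = 0 ∧
          (hplates i₀ e ε R M K D).ν τ₀ .fold x₀ = e := by
        intro h3
        obtain ⟨-, k2, -⟩ := hfront h3
        obtain ⟨j1, j2, j3⟩ := hD.hm τ₀ hτ₀ _ (wl_norm hc k2 hk) (wl_apply _ _ _)
        exact ⟨j2, j3⟩
      obtain ⟨HF1, HF2⟩ := HF τ₀ hτ₀ x₀ hx₀ us δ HD hδ0 hδ1 hk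
      set la := inner ℝ (x₀.2 - ‖x₀.1‖ • (D τ₀).m (wl i₀ (D τ₀).c (kap x₀.1))) ph₀ with hla
      by_cases hla0 : la = 0
      · -- the tip
        have htp : (hplates i₀ e ε R M K D).tp τ₀ .fold x₀ = 0 := by
          have h1 : min ((hplates i₀ e ε R M K D).tp τ₀ .fold x₀)
            ((hplates i₀ e ε R M K D).σ τ₀ .fold x₀) = 0 := hX0
          rcases min_choice ((hplates i₀ e ε R M K D).tp τ₀ .fold x₀)
            ((hplates i₀ e ε R M K D).σ τ₀ .fold x₀) with h2 | h2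
          · rw [← h2, h1]
          · rw [h2] at h1; exact absurd h1 hσX.ne'
        have hwn : ‖(hplates i₀ e ε R M K D).w τ₀ .fold x₀‖ = ε τ₀ * ‖x₀.1‖ := by
          have h1 : (hplates i₀ e ε R M K D).r τ₀ .fold x₀ -
            ‖(hplates i₀ e ε R M K D).w τ₀ .fold x₀‖ = 0 := htp
          have h2 : (hplates i₀ e ε R M K D).r τ₀ .fold x₀ = ε τ₀ * ‖x₀.1‖ := rfl
          rw [h2] at h1
          linarith
        have hz : inner ℝ ((hplates i₀ e ε R M K D).w τ₀ .fold x₀) ph₀ =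
            (D τ₀).dep i₀ (K τ₀) x₀.1 := by
          have h1 : inner ℝ ((hplates i₀ e ε R M K D).w τ₀ .fold x₀) ph₀ =
            |la| + (D τ₀).dep i₀ (K τ₀) x₀.1 := foldw_inner hph1
          rw [h1, hla0, abs_zero, zero_add]
        have hz2 : |(D τ₀).dep i₀ (K τ₀) x₀.1| ≤ ε τ₀ * ‖x₀.1‖ := by
          rw [← hz, ← hwn]
          refine (abs_real_inner_le_norm _ _).trans ?_
          rw [hph1, mul_one]
        have hz3 : ε τ₀ * ‖x₀.1‖ < (D τ₀).r0 * ‖x₀.1‖ := by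
          apply mul_lt_mul_of_pos_right _ hg
          have := hadm.hr
          linarith
        have hz4 : -((D τ₀).r0 * ‖x₀.1‖) < K τ₀ * wq i₀ (D τ₀).c x₀.1 := by
          by_contra h1
          have h2 : (D τ₀).dep i₀ (K τ₀) x₀.1 = -((D τ₀).r0 * ‖x₀.1‖) :=
            max_eq_right (not_lt.mp h1)
          rw [h2, abs_neg, abs_of_nonneg (by positivity)] at hz2
          linarith
        refine pair_regAt (δ := δ) cε cR cM cK hD he G hτ₀ hx₀ hεp h0 hX hX0 hσX (hb _ hX0) hv hdom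
          (HF2 hz4) ?_
        intro h3
        obtain ⟨k1, k2, k3⟩ := hfront h3
        obtain ⟨j1, j2⟩ := hphe h3
        refine ⟨j2, fun v => ?_, k3, (HS k1).1.slab_tip hk (ph := ph₀)
          (k := 1 / K τ₀) fun v => ?_⟩
        · rw [tipD_apply]
          show inner ℝ (v - inner ℝ v ph₀ • ph₀) e = inner ℝ v e
          rw [inner_sub_left, real_inner_smul_left, j1, mul_zero, sub_zero]
        · rw [tipD_apply]
      · obtain ⟨ς, hς, hς1⟩ := exists_sign hla0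
        have hz4 : -(3 * (D τ₀).r0 * ‖x₀.1‖) < K τ₀ * wq i₀ (D τ₀).c x₀.1 := by
          have : 0 < (D τ₀).r0 * ‖x₀.1‖ := by positivity
          linarith
        refine pair_regAt (δ := δ) cε cR cM cK hD he G hτ₀ hx₀ hεp h0 hX hX0 hσX (hb _ hX0) hv hdom
          (HF1 ς hς hς1 hz4) ?_
        intro h3
        obtain ⟨k1, k2, k3⟩ := hfront h3
        obtain ⟨j1, j2⟩ := hphe h3
        refine ⟨j2, fun v => ?_, k3, (HS k1).1.slab fun v => ?_⟩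
        · rw [layD_apply]
          show inner ℝ (v + ((ς - 1) * inner ℝ v ph₀) • ph₀) e = inner ℝ v e
          rw [inner_add_left, real_inner_smul_left, j1, mul_zero, add_zero]
        · rw [layD_apply]

/-- The hairpin form is of class `R`. -/
theorem hplates_rfam (cε : ContinuousOn ε s) (cR : ContinuousOn R s)
    (cM : ContinuousOn M s) (cK : ContinuousOn K s) (hD : HPFam s i₀ e D) (he : ‖e‖ = 1)
    (hA : ∀ τ ∈ s, HAdm i₀ (ε τ) (R τ) (M τ) (K τ) (D τ))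
    {η : ℝ} (G : Glue s η (fun x => ‖x.1‖) (hplates i₀ e ε R M K D).rho
      (hplates i₀ e ε R M K D).be)
    (HZ : ZeroCases s i₀ e ε R M K D) (HF : FoldDirs s i₀ e ε R M K D) :
    RFam s ((hplates i₀ e ε R M K D).fn η (fun x => ‖x.1‖)) where
  cont := G.continuousOn_fn
  hom := fun τ hτ => G.hom1 hτ
  reg := fun τ hτ x hx h0 => by
    obtain ⟨h1, h2⟩ := (G.eq_zero_iff hτ x).mp h0
    have h3 : ‖x.1‖ ≠ 0 := G.N_ne hτ hx h1.ge
    exact hplates_regAt cε cR cM cK hD he hA G HZ HF hτ (norm_ne_zero_iff.mp h3) h1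
      fun a ha => h2 a h3 ha

end Vale.Agent.P268.T
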