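import Vale.Agent.P268.T.H327.HPFinal
import Vale.Agent.P268.T.H366.HPGlue
import Vale.Agent.P268.T.H545.HPFin
import Vale.Agent.P268.T.H278.FoldDirs

/-!
# P268, topological half: homotopies of hairpin data
-/

set_option linter.unusedSectionVars false

namespace Vale.Agent.P268.T

open Set Filter Topology Metric

theorem hpGlueSt {κ ι V : Type*} [Fintype κ] [Fintype ι] [DecidableEq ι]
    [NormedAddCommGroup V] [InnerProductSpace ℝ V] {i₀ : ι} {e : V} (he : ‖e‖ = 1) :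
    HPGlueSt κ ι i₀ e :=
  fun _ _ _ _ _ _ _ _ _ c1 c2 c3 c4 h hA h0 h1 => hplates_glue he c1 c2 c3 c4 h hA h0 h1

theorem hpRegSt_of {κ ι V : Type*} [Fintype κ] [Fintype ι] [DecidableEq ι]
    [NormedAddCommGroup V] [InnerProductSpace ℝ V] {i₀ : ι} {e : V} (he : ‖e‖ = 1)
    (HZ : ∀ (D : ℝ → HData κ (ι → ℝ) V) (ε R M K : ℝ → ℝ), ContinuousOn ε (Icc 0 1) →
      ContinuousOn R (Icc 0 1) → ContinuousOn M (Icc 0 1) →
      ContinuousOn K (Icc 0 1) → HPFam (Icc (0 : ℝ) 1) i₀ e D →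
      (∀ t ∈ Icc (0 : ℝ) 1, HAdm i₀ (ε t) (R t) (M t) (K t) (D t)) →
      ZeroCases (Icc (0 : ℝ) 1) i₀ e ε R M K D) :
    HPRegSt κ ι i₀ e :=
  fun D ε R M K _ cε cR cM cK hD hA h0 h1 => hplates_rfam cε cR cM cK hD he hA
    (hplates_glue he cε cR cM cK hD hA h0 h1) (HZ D ε R M K cε cR cM cK hD hA)
    (foldDirs cε cK hD hA)

end Vale.Agent.P268.T
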