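import Vale.Agent.P268.T.H327.HP

/-!
# P268, topological half: the base of the hairpin form

Elementary facts on the sup norm of `ℝ × (ι → ℝ)`, the chart map `kap`, the projections `wl`,
`lf` and the distance `wq` to the wall.
-/

set_option linter.unusedSectionVars false

namespace Vale.Agent.P268.T

open Set Filter Topology Metric

section Upd

variable {ι : Type*} [Fintype ι] [DecidableEq ι]

theorem nupd_le (p : ι → ℝ) (i₀ : ι) (r : ℝ) :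
    ‖Function.update p i₀ r‖ ≤ max |r| ‖p‖ := by
  rw [pi_norm_le_iff_of_nonneg (le_max_of_le_right (norm_nonneg _))]
  intro j
  by_cases hj : j = i₀
  · subst hj
    rw [Function.update_self]
    exact le_max_left _ _
  · rw [Function.update_of_ne hj]
    exact (norm_le_pi_norm p j).trans (le_max_right _ _)

theorem le_nupd (p : ι → ℝ) (i₀ : ι) (r : ℝ) :
    ‖p‖ ≤ max |p i₀| ‖Function.update p i₀ r‖ := by
  have h := nupd_le (Function.update p i₀ r) i₀ (p i₀)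
  rwa [Function.update_idem, Function.update_eq_self] at h

theorem nupd_eq {p : ι → ℝ} {i₀ : ι} {r : ℝ} (h : |p i₀| < ‖p‖)
    (h' : |r| < ‖Function.update p i₀ r‖) : ‖Function.update p i₀ r‖ = ‖p‖ := by
  apply le_antisymm
  · rcases le_max_iff.mp (nupd_le p i₀ r) with h1 | h1
    · exact absurd h' (not_lt.mpr h1)
    · exact h1
  · rcases le_max_iff.mp (le_nupd p i₀ r) with h1 | h1
    · exact absurd h (not_lt.mpr h1)
    · exact h1

/-- The gauge `max |u₀| (2 ‖p‖)` of the chart. -/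
noncomputable def gmax (s : ℝ × (ι → ℝ)) : ℝ := max |s.1| (2 * ‖s.2‖)

theorem gmax_update_le {u : ℝ} {p : ι → ℝ} {i₀ : ι} {r : ℝ}
    (h' : 2 * |r| < gmax (u, Function.update p i₀ r)) :
    gmax (u, Function.update p i₀ r) ≤ gmax (u, p) := by
  unfold gmax at *
  dsimp only at *
  refine max_le (le_max_left _ _) ?_
  rcases le_max_iff.mp (nupd_le p i₀ r) with h1 | h1
  · rcases lt_max_iff.mp h' with h2 | h2
    · exact le_max_of_le_left (by linarith)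
    · linarith
  · exact le_max_of_le_right (by linarith)

theorem gmax_update_eq {u : ℝ} {p : ι → ℝ} {i₀ : ι} {r : ℝ} (h : 2 * |p i₀| < gmax (u, p))
    (h' : 2 * |r| < gmax (u, Function.update p i₀ r)) :
    gmax (u, Function.update p i₀ r) = gmax (u, p) := by
  apply le_antisymm (gmax_update_le h')
  have h2 := gmax_update_le (u := u) (p := Function.update p i₀ r) (i₀ := i₀) (r := p i₀)
  rw [Function.update_idem, Function.update_eq_self] at h2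
  exact h2 h

theorem norm_prod_update_le {u : ℝ} {p : ι → ℝ} {i₀ : ι} {r : ℝ}
    (h' : 2 * |r| < gmax (u, Function.update p i₀ r)) :
    ‖(u, Function.update p i₀ r)‖ ≤ ‖(u, p)‖ := by
  unfold gmax at h'
  rw [Prod.norm_def, Prod.norm_def]
  dsimp only at *
  refine max_le (le_max_left _ _) ?_
  rcases le_max_iff.mp (nupd_le p i₀ r) with h1 | h1
  · rcases lt_max_iff.mp h' with h2 | h2
    · refine le_max_of_le_left ?_
      rw [Real.norm_eq_abs]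
      have := abs_nonneg r
      linarith
    · linarith
  · exact le_max_of_le_right h1

theorem norm_prod_update_eq {u : ℝ} {p : ι → ℝ} {i₀ : ι} {r : ℝ} (h : 2 * |p i₀| < gmax (u, p))
    (h' : 2 * |r| < gmax (u, Function.update p i₀ r)) :
    ‖(u, Function.update p i₀ r)‖ = ‖(u, p)‖ := by
  apply le_antisymm (norm_prod_update_le h')
  have h2 := norm_prod_update_le (u := u) (p := Function.update p i₀ r) (i₀ := i₀) (r := p i₀)
  rw [Function.update_idem, Function.update_eq_self] at h2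
  exact h2 h

theorem continuous_gmax : Continuous (gmax : ℝ × (ι → ℝ) → ℝ) := by
  unfold gmax
  fun_prop

theorem gmax_pos {s : ℝ × (ι → ℝ)} (hs : s ≠ 0) : 0 < gmax s := kap_den_pos hs

theorem norm_le_gmax (s : ℝ × (ι → ℝ)) : ‖s‖ ≤ gmax s := by
  rw [Prod.norm_def, gmax, Real.norm_eq_abs]
  exact max_le_max le_rfl (by linarith [norm_nonneg s.2])

theorem gmax_le_norm (s : ℝ × (ι → ℝ)) : gmax s ≤ 2 * ‖s‖ := by
  rw [Prod.norm_def, gmax, Real.norm_eq_abs]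
  refine max_le ?_ ?_
  · have := le_max_left |s.1| ‖s.2‖
    have := abs_nonneg s.1
    linarith
  · have := le_max_right |s.1| ‖s.2‖
    linarith

theorem kap_apply (s : ℝ × (ι → ℝ)) (i : ι) : kap s i = 2 / gmax s * s.2 i := rfl

theorem wq_eq {i₀ : ι} {c : ℝ} {s : ℝ × (ι → ℝ)} (hs : s ≠ 0) :
    wq i₀ c s = (kap s i₀ - c) * (gmax s / 2) := by
  have h := gmax_pos hs
  rw [kap_apply]
  unfold wq
  rw [← gmax.eq_1]
  field_simp

theorem abs_kap_le (s : ℝ × (ι → ℝ)) (i : ι) : |kap s i| ≤ 1 :=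
  (norm_le_pi_norm (kap s) i).trans (norm_kap_le s)

theorem abs_kap_lt_iff {s : ℝ × (ι → ℝ)} (hs : s ≠ 0) (i : ι) :
    |kap s i| < 1 ↔ 2 * |s.2 i| < gmax s := by
  have h := gmax_pos hs
  rw [kap_apply, abs_mul, abs_of_pos (by positivity : 0 < 2 / gmax s), div_mul_eq_mul_div,
    div_lt_one h]

theorem wl_mem {i₀ : ι} {c : ℝ} (hc : |c| ≤ 1) {x : ι → ℝ} (hx : ‖x‖ ≤ 1) : ‖wl i₀ c x‖ ≤ 1 :=
  (nupd_le x i₀ c).trans (max_le hc hx)

theorem wl_apply (i₀ : ι) (c : ℝ) (x : ι → ℝ) : wl i₀ c x i₀ = c := Function.update_self _ _ _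

theorem wl_norm {i₀ : ι} {c : ℝ} (hc : |c| < 1) {x : ι → ℝ} (hx : ‖x‖ = 1) (h : |x i₀| < 1) :
    ‖wl i₀ c x‖ = 1 := by
  have h1 := le_nupd x i₀ c
  rw [hx] at h1
  rcases le_max_iff.mp h1 with h2 | h2
  · linarith
  · exact le_antisymm (wl_mem hc.le hx.le) h2

theorem lf_mem {i₀ : ι} {c : ℝ} (hc : |c| ≤ 1) {x : ι → ℝ} (hx : ‖x‖ ≤ 1) : ‖lf i₀ c x‖ ≤ 1 := by
  refine (nupd_le x i₀ _).trans (max_le ?_ hx)
  have h1 : |x i₀| ≤ 1 := (norm_le_pi_norm x i₀).trans hx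
  rw [abs_le] at *
  exact ⟨le_min h1.1 hc.1, (min_le_left _ _).trans h1.2⟩

theorem lf_apply_le (i₀ : ι) (c : ℝ) (x : ι → ℝ) : lf i₀ c x i₀ ≤ c := by
  unfold lf
  rw [Function.update_self]
  exact min_le_right _ _

/-! ### Direction of the wall coordinate -/

theorem add_single {p : ι → ℝ} {i₀ : ι} {t : ℝ} :
    p + Pi.single i₀ t = Function.update p i₀ (p i₀ + t) := by
  ext j
  by_cases hj : j = i₀
  · subst hj
    rw [Pi.add_apply, Pi.single_eq_same, Function.update_self]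
  · rw [Pi.add_apply, Pi.single_eq_of_ne hj, Function.update_of_ne hj, add_zero]

end Upd

/-! ### Front direction of the slab -/

section Front

variable {P : Type*} [NormedAddCommGroup P] [NormedSpace ℝ P]

/-- The sign of a nonzero real number. -/
theorem exists_sign {a : ℝ} (ha : a ≠ 0) : ∃ ς : ℝ, (ς = 1 ∨ ς = -1) ∧ 0 < ς * a := by
  rcases lt_or_gt_of_ne ha with h | h
  · exact ⟨-1, Or.inr rfl, by linarith⟩
  · exact ⟨1, Or.inl rfl, by linarith⟩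

theorem abs_of_sign {ς a : ℝ} (hς : ς = 1 ∨ ς = -1) (h : 0 < ς * a) : |a| = ς * a := by
  rcases hς with rfl | rfl
  · rw [abs_of_pos (by linarith)]; ring
  · rw [abs_of_neg (by linarith)]; ring

theorem front_facts {s : ℝ × P} (h : |s.1| = ‖s.2‖) {ς : ℝ} (hς : ς = 1 ∨ ς = -1)
    (hs1 : 0 < ς * s.1) (δ : ℝ) :
    ∃ U ∈ 𝓝 s, ∀ y ∈ U, ∀ l : ℝ, ∀ t : P, ‖y.2 + t‖ = ‖y.2‖ →
      y + ((0, t) + l • (-(δ * ς), (0 : P))) ∈ U →
      |(y + ((0, t) + l • (-(δ * ς), (0 : P)))).1| = |y.1| - δ * l ∧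
      |y.1| ≤ 2 * ‖y.2‖ ∧ |y.1| - δ * l ≤ 2 * ‖y.2‖ := by
  have h2 : 0 < ‖s.2‖ := by rw [← h, abs_of_sign hς hs1]; exact hs1
  refine ⟨{y | 0 < ς * y.1 ∧ |y.1| < 2 * ‖y.2‖}, ?_, ?_⟩
  · have o1 : IsOpen {y : ℝ × P | 0 < ς * y.1 ∧ |y.1| < 2 * ‖y.2‖} := by
      have c1 : Continuous fun y : ℝ × P => ς * y.1 := by fun_prop
      have c2 : Continuous fun y : ℝ × P => |y.1| := by fun_prop
      have c3 : Continuous fun y : ℝ × P => 2 * ‖y.2‖ := by fun_prop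
      exact (isOpen_lt continuous_const c1).inter (isOpen_lt c2 c3)
    refine o1.mem_nhds ⟨hs1, ?_⟩
    rw [h]; linarith
  · rintro y ⟨y1, y2⟩ l t ht ⟨z1, z2⟩
    have e1 : (y + ((0, t) + l • (-(δ * ς), (0 : P)))).1 = y.1 - l * (δ * ς) := by
      simp only [Prod.fst_add, Prod.smul_fst, smul_eq_mul]
      ring
    have e2 : (y + ((0, t) + l • (-(δ * ς), (0 : P)))).2 = y.2 + t := by
      simp
    rw [e1] at z1 z2
    rw [e2, ht] at z2
    rw [e1]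
    have e3 : |y.1 - l * (δ * ς)| = |y.1| - δ * l := by
      rw [abs_of_sign hς z1, abs_of_sign hς y1]
      have : ς * ς = 1 := by rcases hς with rfl | rfl <;> norm_num
      linear_combination -(l * δ) * this
    exact ⟨e3, y2.le, by rw [← e3]; exact z2.le⟩

end Front

section Dir

variable {ι : Type*} [Fintype ι] [DecidableEq ι]

theorem kap_eq_of {y y' : ℝ × (ι → ℝ)} (h : gmax y' = gmax y) {j : ι} (hj : y'.2 j = y.2 j) :
    kap y' j = kap y j := by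
  rw [kap_apply, kap_apply, h, hj]

theorem wl_kap_eq_of {i₀ : ι} {c : ℝ} {y y' : ℝ × (ι → ℝ)} (h : gmax y' = gmax y) {r : ℝ}
    (hj : y'.2 = Function.update y.2 i₀ r) : wl i₀ c (kap y') = wl i₀ c (kap y) := by
  unfold wl
  ext j
  by_cases h1 : j = i₀
  · subst h1
    rw [Function.update_self, Function.update_self]
  · rw [Function.update_of_ne h1, Function.update_of_ne h1]
    exact kap_eq_of h (by rw [hj, Function.update_of_ne h1])

theorem wq_eq_of {i₀ : ι} {c : ℝ} {y y' : ℝ × (ι → ℝ)} (h : gmax y' = gmax y) {t : ℝ}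
    (hj : y'.2 i₀ = y.2 i₀ + t) : wq i₀ c y' = wq i₀ c y + t := by
  unfold wq
  unfold gmax at h
  rw [h, hj]
  ring

/-- A base direction `us` along which the chart map is constant, and the gauge is Lipschitz. -/
structure HDir (i₀ : ι) (s₀ us : ℝ × (ι → ℝ)) (δ : ℝ) : Prop where
  base : ∃ U ∈ 𝓝 s₀, ∀ y ∈ U, ∀ l : ℝ, y + l • us ∈ U → y ≠ 0 ∧ y + l • us ≠ 0 ∧
    kap (y + l • us) = kap y ∧ (∀ c, wq i₀ c (y + l • us) = wq i₀ c y) ∧
    |‖y + l • us‖ - ‖y‖| ≤ δ * |l|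
  wall : |kap s₀ i₀| < 1 → ∃ U ∈ 𝓝 s₀, ∀ y ∈ U, ∀ t l : ℝ,
    y + ((0, Pi.single i₀ t) + l • us) ∈ U → y ≠ 0 ∧ y + ((0, Pi.single i₀ t) + l • us) ≠ 0 ∧
    (∀ c, wl i₀ c (kap (y + ((0, Pi.single i₀ t) + l • us))) = wl i₀ c (kap y)) ∧
    (∀ c, wq i₀ c (y + ((0, Pi.single i₀ t) + l • us)) = wq i₀ c y + t) ∧
    |‖y + ((0, Pi.single i₀ t) + l • us)‖ - ‖y‖| ≤ δ * |l|

/-- The direction `us` moves the front of the slab. -/
structure SDir (i₀ : ι) (s₀ us : ℝ × (ι → ℝ)) (δ : ℝ) : Prop where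
  base : ∃ U ∈ 𝓝 s₀, ∀ y ∈ U, ∀ l : ℝ, y + l • us ∈ U →
    (‖(y + l • us).2‖ - |(y + l • us).1|) - (‖y.2‖ - |y.1|) = δ * l
  wall : |kap s₀ i₀| < 1 → ∃ U ∈ 𝓝 s₀, ∀ y ∈ U, ∀ t l : ℝ,
    y + ((0, Pi.single i₀ t) + l • us) ∈ U →
    (‖(y + ((0, Pi.single i₀ t) + l • us)).2‖ - |(y + ((0, Pi.single i₀ t) + l • us)).1|) -
      (‖y.2‖ - |y.1|) = δ * l

theorem hdir_zero (i₀ : ι) {s₀ : ℝ × (ι → ℝ)} (hs : s₀ ≠ 0) : HDir i₀ s₀ 0 0 where
  base := by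
    refine ⟨{y | y ≠ 0}, isOpen_compl_singleton.mem_nhds hs, fun y hy l hy' => ?_⟩
    rw [smul_zero, add_zero] at *
    exact ⟨hy, hy, rfl, fun _ => rfl, by simp⟩
  wall := fun h => by
    have o1 : IsOpen {y : ℝ × (ι → ℝ) | y ≠ 0 ∧ 2 * |y.2 i₀| < gmax y} := by
      apply isOpen_compl_singleton.inter
      have c1 : Continuous fun y : ℝ × (ι → ℝ) => 2 * |y.2 i₀| := by fun_prop
      exact isOpen_lt c1 continuous_gmax
    refine ⟨_, o1.mem_nhds ⟨hs, (abs_kap_lt_iff hs i₀).mp h⟩, ?_⟩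
    rintro y ⟨y1, y2⟩ t l hy'
    rw [smul_zero, add_zero] at *
    obtain ⟨z1, z2⟩ := hy'
    have e1 : y + (0, Pi.single i₀ t) = (y.1, Function.update y.2 i₀ (y.2 i₀ + t)) := by
      refine Prod.ext ?_ ?_
      · simp
      · exact add_single
    have hg : gmax (y + (0, Pi.single i₀ t)) = gmax y := by
      rw [e1] at z2 ⊢
      refine gmax_update_eq (u := y.1) (p := y.2) y2 ?_
      simpa using z2
    refine ⟨y1, z1, fun c => wl_kap_eq_of hg (by rw [e1]), fun c => wq_eq_of hg ?_, ?_⟩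
    · rw [e1]; exact Function.update_self _ _ _
    · have hn : ‖y + (0, Pi.single i₀ t)‖ = ‖y‖ := by
        rw [e1] at z2 ⊢
        refine norm_prod_update_eq (u := y.1) (p := y.2) y2 ?_
        simpa using z2
      rw [hn, sub_self, abs_zero, zero_mul]

theorem front_facts' {s : ℝ × (ι → ℝ)} (h : |s.1| = ‖s.2‖) {ς : ℝ} (hς : ς = 1 ∨ ς = -1)
    (hs1 : 0 < ς * s.1) {δ : ℝ} (hδ : 0 ≤ δ) :
    ∃ U ∈ 𝓝 s, ∀ y ∈ U, ∀ l : ℝ, ∀ t : ι → ℝ, ‖y.2 + t‖ = ‖y.2‖ →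
      y + ((0, t) + l • (-(δ * ς), (0 : ι → ℝ))) ∈ U →
      y ≠ 0 ∧ y + ((0, t) + l • (-(δ * ς), (0 : ι → ℝ))) ≠ 0 ∧
      gmax (y + ((0, t) + l • (-(δ * ς), (0 : ι → ℝ)))) = gmax y ∧
      |‖y + ((0, t) + l • (-(δ * ς), (0 : ι → ℝ)))‖ - ‖y‖| ≤ δ * |l| ∧
      (‖(y + ((0, t) + l • (-(δ * ς), (0 : ι → ℝ)))).2‖ -
        |(y + ((0, t) + l • (-(δ * ς), (0 : ι → ℝ)))).1|) - (‖y.2‖ - |y.1|) = δ * l := by
  obtain ⟨U, hU, H⟩ := front_facts h hς hs1 δ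
  have hs0 : s ≠ 0 := by rintro rfl; simp at hs1
  refine ⟨U ∩ {y | y ≠ 0}, inter_mem hU (isOpen_compl_singleton.mem_nhds hs0), ?_⟩
  intro y hy l t ht hy'
  obtain ⟨h1, h2, h3⟩ := H y hy.1 l t ht hy'.1
  have e2 : (y + ((0, t) + l • (-(δ * ς), (0 : ι → ℝ)))).2 = y.2 + t := by simp
  refine ⟨hy.2, hy'.2, ?_, ?_, ?_⟩
  · unfold gmax
    rw [e2, ht, h1, max_eq_right h2, max_eq_right h3]
  · rw [Prod.norm_def, Prod.norm_def y, Real.norm_eq_abs, Real.norm_eq_abs, e2, ht, h1]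
    refine (abs_max_sub_max_le_abs _ _ _).trans ?_
    rw [sub_sub_cancel_left, abs_neg, abs_mul, abs_of_nonneg hδ]
  · rw [e2, ht, h1]
    ring

theorem hdir_front (i₀ : ι) {s : ℝ × (ι → ℝ)} (h : |s.1| = ‖s.2‖) {ς : ℝ}
    (hς : ς = 1 ∨ ς = -1) (hs1 : 0 < ς * s.1) {δ : ℝ} (hδ : 0 ≤ δ) :
    HDir i₀ s (-(δ * ς), (0 : ι → ℝ)) δ ∧ SDir i₀ s (-(δ * ς), (0 : ι → ℝ)) δ := by
  obtain ⟨U, hU, H⟩ := front_facts' h hς hs1 hδ
  have hbase : ∀ y ∈ U, ∀ l : ℝ, y + l • (-(δ * ς), (0 : ι → ℝ)) ∈ U →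
      y ≠ 0 ∧ y + l • (-(δ * ς), (0 : ι → ℝ)) ≠ 0 ∧
      gmax (y + l • (-(δ * ς), (0 : ι → ℝ))) = gmax y ∧
      |‖y + l • (-(δ * ς), (0 : ι → ℝ))‖ - ‖y‖| ≤ δ * |l| ∧
      (‖(y + l • (-(δ * ς), (0 : ι → ℝ))).2‖ -
        |(y + l • (-(δ * ς), (0 : ι → ℝ))).1|) - (‖y.2‖ - |y.1|) = δ * l := by
    intro y hy l hy'
    have h1 := H y hy l 0 (by rw [add_zero])
    rw [show ((0 : ℝ), (0 : ι → ℝ)) = 0 from rfl, zero_add] at h1
    exact h1 hy'
  have hs0 : s ≠ 0 := by rintro rfl; simp at hs1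
  have hwall : |kap s i₀| < 1 → ∃ U' ∈ 𝓝 s, ∀ y ∈ U', ∀ t l : ℝ,
      y + ((0, Pi.single i₀ t) + l • (-(δ * ς), (0 : ι → ℝ))) ∈ U' → y ∈ U ∧
      y + ((0, Pi.single i₀ t) + l • (-(δ * ς), (0 : ι → ℝ))) ∈ U ∧
      ‖y.2 + Pi.single i₀ t‖ = ‖y.2‖ := by
    intro hk
    have h2 : |s.2 i₀| < ‖s.2‖ := by
      have h3 := (abs_kap_lt_iff hs0 i₀).mp hk
      have h4 : 0 ≤ ‖s.2‖ := norm_nonneg _
      unfold gmax at h3
      rw [h, max_eq_right (by linarith)] at h3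
      linarith
    have o1 : IsOpen {y : ℝ × (ι → ℝ) | |y.2 i₀| < ‖y.2‖} := by
      have c1 : Continuous fun y : ℝ × (ι → ℝ) => |y.2 i₀| := by fun_prop
      have c2 : Continuous fun y : ℝ × (ι → ℝ) => ‖y.2‖ := by fun_prop
      exact isOpen_lt c1 c2
    refine ⟨U ∩ {y | |y.2 i₀| < ‖y.2‖}, inter_mem hU (o1.mem_nhds h2), ?_⟩
    rintro y ⟨y1, y2⟩ t l ⟨z1, z2⟩
    refine ⟨y1, z1, ?_⟩
    have e2 : (y + ((0, Pi.single i₀ t) + l • (-(δ * ς), (0 : ι → ℝ)))).2 =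
        Function.update y.2 i₀ (y.2 i₀ + t) := by
      rw [← add_single]; simp
    rw [mem_ofPred_eq, e2, Function.update_self] at z2
    rw [add_single]
    exact nupd_eq y2 z2
  refine ⟨⟨⟨U, hU, fun y hy l hy' => ?_⟩, fun hk => ?_⟩, ⟨⟨U, hU, fun y hy l hy' => ?_⟩,
    fun hk => ?_⟩⟩
  · obtain ⟨h1, h2, h3, h4, -⟩ := hbase y hy l hy'
    have e2 : (y + l • (-(δ * ς), (0 : ι → ℝ))).2 = y.2 := by simp
    refine ⟨h1, h2, ?_, fun c => ?_, h4⟩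
    · ext j
      exact kap_eq_of h3 (by rw [e2])
    · have := wq_eq_of (i₀ := i₀) (c := c) h3 (t := 0) (by rw [e2, add_zero])
      rw [this, add_zero]
  · obtain ⟨U', hU', H'⟩ := hwall hk
    refine ⟨U', hU', fun y hy t l hy' => ?_⟩
    obtain ⟨a1, a2, a3⟩ := H' y hy t l hy'
    obtain ⟨h1, h2, h3, h4, -⟩ := H y a1 l _ a3 a2
    have e2 : (y + ((0, Pi.single i₀ t) + l • (-(δ * ς), (0 : ι → ℝ)))).2 =
        Function.update y.2 i₀ (y.2 i₀ + t) := by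
      rw [← add_single]; simp
    refine ⟨h1, h2, fun c => wl_kap_eq_of h3 e2, fun c => wq_eq_of h3 ?_, h4⟩
    rw [e2, Function.update_self]
  · exact (hbase y hy l hy').2.2.2.2
  · obtain ⟨U', hU', H'⟩ := hwall hk
    refine ⟨U', hU', fun y hy t l hy' => ?_⟩
    obtain ⟨a1, a2, a3⟩ := H' y hy t l hy'
    exact (H y a1 l _ a3 a2).2.2.2.2

end Dir

end Vale.Agent.P268.T
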