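import Vale.Agent.P268.T.Delta

/-!
# P268, topological half: the hairpin form

The normal form `N(b)` with one pair of sheets `k`, `t` replaced by a hairpin: `k` and `t` live
over `{x | x i₀ ≤ c}` of the cube `Q` (`c` = position of the wall), and are joined over the wall
`{x | x i₀ = c}` by a fold.

Tip data: `m`, `φ` (unit), `νw` (unit), functions on the wall, and the half distance `r₀ > 0`.
The fold plate is `w = (|⟪y, φ⟫| + z) φ + (y - ⟪y, φ⟫ φ)`, with `y = v - g m`, `g = ‖s‖` and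
`z = max (K q) (-r₀ g)`, where `q = p i₀ - c max |u₀| (2‖p‖) / 2 = (x i₀ - c) max |u₀| (2‖p‖) / 2`
is the (signed) distance to the wall in the chart.  For `z = - r₀ g` it consists of the two
sheets `g (m ± r₀ φ)`, with normals `νw` and `R_φ νw` (reflection).
-/

set_option linter.unusedSectionVars false

namespace Vale.Agent.P268.T

open Set Filter Topology Metric

/-- Index of the plates of the hairpin form: the slab, the sheets (`inl a`: the other sheets,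
`inr true`: the sheet `k` and `inr false`: the sheet `t` of the hairpin), and the fold plate. -/
inductive HIx (κ : Type*)
  | slab : HIx κ
  | sh (a : κ ⊕ Bool) : HIx κ
  | fold : HIx κ
deriving DecidableEq, Fintype

instance (κ : Type*) : Nonempty (HIx κ) := ⟨.slab⟩

/-- Data of a hairpin form. -/
structure HData (κ P V : Type*) where
  /-- centres of the other sheets -/
  b : κ → P → V
  /-- normals of the other sheets -/
  n : κ → P → V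
  /-- centre of the sheet `k` -/
  bk : P → V
  /-- normal of the sheet `k` -/
  nk : P → V
  /-- centre of the sheet `t` -/
  bt : P → V
  /-- normal of the sheet `t` -/
  nt : P → V
  /-- midpoint of the hairpin, on the wall -/
  m : P → V
  /-- direction of the hairpin (from `t` to `k`), on the wall -/
  ph : P → V
  /-- normal of the sheet `k`, on the wall -/
  nw : P → V
  /-- half the distance of `k` and `t` at the tip -/
  r0 : ℝ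
  /-- position of the wall -/
  c : ℝ

section Maps

variable {ι : Type*} [DecidableEq ι]

/-- Projection to the wall. -/
def wl (i₀ : ι) (c : ℝ) (x : ι → ℝ) : ι → ℝ := Function.update x i₀ c

/-- Retraction to the left of the wall. -/
noncomputable def lf (i₀ : ι) (c : ℝ) (x : ι → ℝ) : ι → ℝ := Function.update x i₀ (min (x i₀) c)

/-- Distance to the wall. -/
noncomputable def wq [Fintype ι] (i₀ : ι) (c : ℝ) (s : ℝ × (ι → ℝ)) : ℝ :=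
  s.2 i₀ - c * (max |s.1| (2 * ‖s.2‖) / 2)

end Maps

section Fold

variable {V : Type*} [NormedAddCommGroup V] [InnerProductSpace ℝ V]

/-- The fold: `y ↦ (|⟪y, φ⟫| + z) φ + (y - ⟪y, φ⟫ φ)`. -/
noncomputable def foldw (z : ℝ) (ph y : V) : V :=
  y + (|inner ℝ y ph| - inner ℝ y ph + z) • ph

/-- Reflection in the hyperplane orthogonal to the unit vector `φ`. -/
noncomputable def rfl' (ph y : V) : V := y - (2 * inner ℝ y ph) • ph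

end Fold

variable {T V κ ι : Type*} [TopologicalSpace T] [NormedAddCommGroup V] [InnerProductSpace ℝ V]
  [Fintype ι] [DecidableEq ι]

/-- The centres of the sheets of a hairpin form, as functions on the whole cube. -/
noncomputable def HData.cen (i₀ : ι) (D : HData κ (ι → ℝ) V) : κ ⊕ Bool → (ι → ℝ) → V
  | .inl a, x => D.b a x
  | .inr true, x => D.bk (lf i₀ D.c x)
  | .inr false, x => D.bt (lf i₀ D.c x)

/-- The normals of the sheets of a hairpin form, as functions on the whole cube. -/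
noncomputable def HData.nor (i₀ : ι) (D : HData κ (ι → ℝ) V) : κ ⊕ Bool → (ι → ℝ) → V
  | .inl a, x => D.n a x
  | .inr true, x => D.nk (lf i₀ D.c x)
  | .inr false, x => D.nt (lf i₀ D.c x)

/-- The domain functions of the sheets. -/
noncomputable def HData.dom (i₀ : ι) (M K : ℝ) (D : HData κ (ι → ℝ) V) :
    κ ⊕ Bool → ℝ × (ι → ℝ) → ℝ
  | .inl _, s => M * (s.1 - ‖s.2‖ / 2)
  | .inr _, s => min (M * (s.1 - ‖s.2‖ / 2)) (M * (-(K * wq i₀ D.c s) - 2 * D.r0 * ‖s‖))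

/-- Depth function of the fold. -/
noncomputable def HData.dep (i₀ : ι) (K : ℝ) (D : HData κ (ι → ℝ) V) (s : ℝ × (ι → ℝ)) : ℝ :=
  max (K * wq i₀ D.c s) (-(D.r0 * ‖s‖))

/-- The plates of the hairpin form, with parameters depending on `τ`. -/
noncomputable def hplates (i₀ : ι) (e : V) (ε R M K : T → ℝ) (D : T → HData κ (ι → ℝ) V) :
    SheetData T ((ℝ × (ι → ℝ)) × V) V (HIx κ) where
  w τ a x := match a with
    | .slab => x.2
    | .sh a => x.2 - ‖x.1‖ • (D τ).cen i₀ a (kap x.1)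
    | .fold => foldw ((D τ).dep i₀ (K τ) x.1) ((D τ).ph (wl i₀ (D τ).c (kap x.1)))
        (x.2 - ‖x.1‖ • (D τ).m (wl i₀ (D τ).c (kap x.1)))
  ν τ a x := match a with
    | .slab => e
    | .sh a => (D τ).nor i₀ a (kap x.1)
    | .fold => (D τ).nw (wl i₀ (D τ).c (kap x.1))
  r τ a x := match a with
    | .slab => R τ * ‖x.1‖
    | .sh _ => ε τ * ‖x.1‖
    | .fold => ε τ * ‖x.1‖
  σ τ a x := match a with
    | .slab => M τ * (‖x.1.2‖ - |x.1.1|)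
    | .sh a => (D τ).dom i₀ (M τ) (K τ) a x.1
    | .fold => min (M τ * (x.1.1 - ‖x.1.2‖ / 2))
        (M τ * (K τ * wq i₀ (D τ).c x.1 + 4 * (D τ).r0 * ‖x.1‖))

/-- **The hairpin form**. -/
noncomputable def HP [Fintype κ] (i₀ : ι) (e : V) (ε R M K : ℝ) (D : HData κ (ι → ℝ) V) :
    (ℝ × (ι → ℝ)) × V → ℂ :=
  (hplates i₀ e (fun _ : Unit => ε) (fun _ => R) (fun _ => M) (fun _ => K) (fun _ => D)).fn ε
    (fun x => ‖x.1‖) ()

/-- A continuous family (over `s`) of data of the hairpin form. -/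
structure HPFam (s : Set T) (i₀ : ι) (e : V) (D : T → HData κ (ι → ℝ) V) : Prop where
  /-- the other sheets -/
  oth : BFam s e (fun τ => (D τ).b) (fun τ => (D τ).n)
  cc : ContinuousOn (fun τ => (D τ).c) s
  cr : ContinuousOn (fun τ => (D τ).r0) s
  hc : ∀ τ ∈ s, |(D τ).c| < 1
  hr : ∀ τ ∈ s, 0 < (D τ).r0
  cbk : ContinuousOn (fun q : T × (ι → ℝ) => (D q.1).bk q.2)
    {q | q.1 ∈ s ∧ ‖q.2‖ ≤ 1 ∧ q.2 i₀ ≤ (D q.1).c}
  cnk : ContinuousOn (fun q : T × (ι → ℝ) => (D q.1).nk q.2)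
    {q | q.1 ∈ s ∧ ‖q.2‖ ≤ 1 ∧ q.2 i₀ ≤ (D q.1).c}
  cbt : ContinuousOn (fun q : T × (ι → ℝ) => (D q.1).bt q.2)
    {q | q.1 ∈ s ∧ ‖q.2‖ ≤ 1 ∧ q.2 i₀ ≤ (D q.1).c}
  cnt : ContinuousOn (fun q : T × (ι → ℝ) => (D q.1).nt q.2)
    {q | q.1 ∈ s ∧ ‖q.2‖ ≤ 1 ∧ q.2 i₀ ≤ (D q.1).c}
  cm : ContinuousOn (fun q : T × (ι → ℝ) => (D q.1).m q.2)
    {q | q.1 ∈ s ∧ ‖q.2‖ ≤ 1 ∧ q.2 i₀ = (D q.1).c}
  cph : ContinuousOn (fun q : T × (ι → ℝ) => (D q.1).ph q.2)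
    {q | q.1 ∈ s ∧ ‖q.2‖ ≤ 1 ∧ q.2 i₀ = (D q.1).c}
  cnw : ContinuousOn (fun q : T × (ι → ℝ) => (D q.1).nw q.2)
    {q | q.1 ∈ s ∧ ‖q.2‖ ≤ 1 ∧ q.2 i₀ = (D q.1).c}
  nnk : ∀ τ ∈ s, ∀ x, ‖x‖ ≤ 1 → x i₀ ≤ (D τ).c → ‖(D τ).nk x‖ = 1
  nnt : ∀ τ ∈ s, ∀ x, ‖x‖ ≤ 1 → x i₀ ≤ (D τ).c → ‖(D τ).nt x‖ = 1
  nph : ∀ τ ∈ s, ∀ x, ‖x‖ ≤ 1 → x i₀ = (D τ).c → ‖(D τ).ph x‖ = 1
  nnw : ∀ τ ∈ s, ∀ x, ‖x‖ ≤ 1 → x i₀ = (D τ).c → ‖(D τ).nw x‖ = 1
  /-- boundary conditions -/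
  hbk : ∀ τ ∈ s, ∀ x, ‖x‖ = 1 → x i₀ ≤ (D τ).c → inner ℝ ((D τ).bk x) e = 0 ∧ (D τ).nk x = e
  hbt : ∀ τ ∈ s, ∀ x, ‖x‖ = 1 → x i₀ ≤ (D τ).c → inner ℝ ((D τ).bt x) e = 0 ∧ (D τ).nt x = e
  hm : ∀ τ ∈ s, ∀ x, ‖x‖ = 1 → x i₀ = (D τ).c →
    inner ℝ ((D τ).m x) e = 0 ∧ inner ℝ ((D τ).ph x) e = 0 ∧ (D τ).nw x = e
  /-- the sheets are distinct -/
  dkt : ∀ τ ∈ s, ∀ x, ‖x‖ ≤ 1 → x i₀ ≤ (D τ).c → (D τ).bk x ≠ (D τ).bt x
  dk : ∀ τ ∈ s, ∀ x, ‖x‖ ≤ 1 → x i₀ ≤ (D τ).c → ∀ a, (D τ).bk x ≠ (D τ).b a x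
  dt : ∀ τ ∈ s, ∀ x, ‖x‖ ≤ 1 → x i₀ ≤ (D τ).c → ∀ a, (D τ).bt x ≠ (D τ).b a x
  /-- the other sheets avoid the tip -/
  dtip : ∀ τ ∈ s, ∀ x, ‖x‖ ≤ 1 → x i₀ = (D τ).c → ∀ a, ∀ μ : ℝ, |μ| ≤ (D τ).r0 →
    (D τ).b a x ≠ (D τ).m x + μ • (D τ).ph x
  /-- near the wall the hairpin is rigid, given by the tip data -/
  rig : ∃ d > 0, ∀ τ ∈ s, ∀ x, ‖x‖ ≤ 1 → (D τ).c - d ≤ x i₀ → x i₀ ≤ (D τ).c →
    (D τ).bk x = (D τ).m (wl i₀ (D τ).c x) + (D τ).r0 • (D τ).ph (wl i₀ (D τ).c x) ∧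
    (D τ).bt x = (D τ).m (wl i₀ (D τ).c x) - (D τ).r0 • (D τ).ph (wl i₀ (D τ).c x) ∧
    (D τ).nk x = (D τ).nw (wl i₀ (D τ).c x) ∧
    (D τ).nt x = rfl' ((D τ).ph (wl i₀ (D τ).c x)) ((D τ).nw (wl i₀ (D τ).c x))

/-- Data of one hairpin form. -/
def HPData (i₀ : ι) (e : V) (D : HData κ (ι → ℝ) V) : Prop :=
  HPFam (univ : Set Unit) i₀ e (fun _ => D)

/-- Admissible parameters for hairpin data: `ε` small, `R`, `M`, `K` large. -/
structure HAdm (i₀ : ι) (ε R M K : ℝ) (D : HData κ (ι → ℝ) V) : Prop where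
  hε : 0 < ε
  hR : ε ≤ R
  hM : 32 * R ≤ M
  hMr : R ≤ M * D.r0
  hr : 8 * ε ≤ D.r0
  hK : 0 < K
  hb : ∀ a, ∀ x ∈ closedBall (0 : ι → ℝ) 1, ‖D.cen i₀ a x‖ + 2 * ε < R
  hm : ∀ x ∈ closedBall (0 : ι → ℝ) 1, x i₀ = D.c → ‖D.m x‖ + 2 * D.r0 < R
  hd : ∀ a a', a ≠ a' → ∀ x ∈ closedBall (0 : ι → ℝ) 1, (a.isRight ∨ a'.isRight → x i₀ ≤ D.c) →
    4 * ε ≤ ‖D.cen i₀ a x - D.cen i₀ a' x‖
  /-- the other sheets are far from the fold near the wall -/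
  ht : ∀ a, ∀ x ∈ closedBall (0 : ι → ℝ) 1, |x i₀ - D.c| ≤ 16 * D.r0 / K → ∀ μ : ℝ,
    |μ| ≤ D.r0 → 8 * ε ≤ ‖D.b a x - (D.m (wl i₀ D.c x) + μ • D.ph (wl i₀ D.c x))‖
  /-- the hairpin is rigid near the wall -/
  hg : ∀ x ∈ closedBall (0 : ι → ℝ) 1, D.c - 16 * D.r0 / K ≤ x i₀ → x i₀ ≤ D.c →
    D.bk x = D.m (wl i₀ D.c x) + D.r0 • D.ph (wl i₀ D.c x) ∧
    D.bt x = D.m (wl i₀ D.c x) - D.r0 • D.ph (wl i₀ D.c x) ∧
    D.nk x = D.nw (wl i₀ D.c x) ∧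
    D.nt x = rfl' (D.ph (wl i₀ D.c x)) (D.nw (wl i₀ D.c x))
  /-- the fold is away from the faces `x i₀ = ± 1` -/
  h1 : |D.c| + 16 * D.r0 / K < 1

end Vale.Agent.P268.T
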