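import Vale.Agent.P268.T.PlatesD

/-!
# P268, topological half: a criterion at the zeros of a glued function

`Glue.regAt_rel`: at a zero only a set `F` of relevant sheets counts; the other sheets are
negative there or locally dominated by a relevant one.
`inc2_sheet`: the increments of one sheet, given by local data `w`, `ν`, `r`.
-/

set_option linter.unusedSectionVars false

namespace Vale.Agent.P268.T

open Set Filter Topology

section Rel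

variable {T E A : Type*} [TopologicalSpace T] [NormedAddCommGroup E] [NormedSpace ℝ E]
  [Fintype A] [Nonempty A] {s : Set T} {η : ℝ} {N : E → ℝ} {rho be : T → A → E → ℝ}

/-- A relevant sheet, near a zero: its real part is a minimum of two functions, which are
strongly monotone along `B` if they vanish at the point. -/
def Piece327 (s : Set T) (τ₀ : T) (x₀ : E) (κ K : ℝ) (B : ℂ →L[ℝ] E) (rh b : T → E → ℝ) : Prop :=
  ∃ f g : T → E → ℝ,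
    (∀ᶠ p : T × E in 𝓝[s ×ˢ univ] (τ₀, x₀), rh p.1 p.2 = min (f p.1 p.2) (g p.1 p.2)) ∧
    ContinuousWithinAt (fun p : T × E => f p.1 p.2) (s ×ˢ univ) (τ₀, x₀) ∧
    ContinuousWithinAt (fun p : T × E => g p.1 p.2) (s ×ˢ univ) (τ₀, x₀) ∧
    (f τ₀ x₀ = 0 → ∃ U ∈ 𝓝 x₀, ∀ᶠ τ in 𝓝[s] τ₀, Inc2 κ K (f τ) (b τ) B U) ∧
    (g τ₀ x₀ = 0 → ∃ U ∈ 𝓝 x₀, ∀ᶠ τ in 𝓝[s] τ₀, Inc2 κ K (g τ) (b τ) B U)

theorem Glue.active_rel (h : Glue s η N rho be) {τ₀ : T} (hτ₀ : τ₀ ∈ s) {x₀ : E}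
    (h0 : gre rho τ₀ x₀ = 0) {F : Set A}
    (hdom : ∀ b, b ∉ F → rho τ₀ b x₀ < 0 ∨ ∃ a ∈ F,
      ∀ᶠ p : T × E in 𝓝[s ×ˢ univ] (τ₀, x₀), rho p.1 b p.2 ≤ rho p.1 a p.2) :
    ∀ᶠ p : T × E in 𝓝[s ×ˢ univ] (τ₀, x₀), ∃ a ∈ F, rho τ₀ a x₀ = 0 ∧
      gre rho p.1 p.2 = rho p.1 a p.2 := by
  have hmem : (τ₀, x₀) ∈ s ×ˢ (univ : Set E) := ⟨hτ₀, mem_univ _⟩
  have h1 : ∀ b, ∀ᶠ p : T × E in 𝓝[s ×ˢ univ] (τ₀, x₀), b ∉ F → rho τ₀ b x₀ = 0 →
      ∃ a ∈ F, rho τ₀ a x₀ = 0 ∧ rho p.1 b p.2 ≤ rho p.1 a p.2 := by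
    intro b
    by_cases hb : b ∈ F
    · exact Eventually.of_forall fun p hp => absurd hb hp
    · rcases hdom b hb with h2 | ⟨a, ha, hev⟩
      · exact Eventually.of_forall fun p _ hp => absurd hp h2.ne
      · by_cases hb0 : rho τ₀ b x₀ = 0
        · have h3 : rho τ₀ b x₀ ≤ rho τ₀ a x₀ := hev.self_of_nhdsWithin hmem
          have h4 : rho τ₀ a x₀ ≤ 0 := h0 ▸ gre_ge τ₀ a x₀
          have h5 : rho τ₀ a x₀ = 0 := le_antisymm h4 (hb0 ▸ h3)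
          filter_upwards [hev] with p hp _ _
          exact ⟨a, ha, h5, hp⟩
        · exact Eventually.of_forall fun p _ hp => absurd hp hb0
  filter_upwards [h.active hτ₀ x₀, eventually_all.mpr h1] with p hp hp1
  obtain ⟨b, hb, hbp⟩ := hp
  rw [h0] at hb
  by_cases hbF : b ∈ F
  · exact ⟨b, hbF, hb, hbp⟩
  · obtain ⟨a, ha, ha0, hle⟩ := hp1 b hbF hb
    exact ⟨a, ha, ha0, le_antisymm (hbp.le.trans hle) (gre_ge _ _ _)⟩

/-- **Criterion at a zero.** -/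
theorem Glue.regAt_rel (h : Glue s η N rho be) {τ₀ : T} (hτ₀ : τ₀ ∈ s) {x₀ : E} (hx₀ : N x₀ ≠ 0)
    (h0 : gre rho τ₀ x₀ = 0) (F : Set A)
    (hdom : ∀ b, b ∉ F → rho τ₀ b x₀ < 0 ∨ ∃ a ∈ F,
      ∀ᶠ p : T × E in 𝓝[s ×ˢ univ] (τ₀, x₀), rho p.1 b p.2 ≤ rho p.1 a p.2)
    {κ K : ℝ} (hκ : 0 < κ) (B : ℂ →L[ℝ] E)
    (hpc : ∀ a ∈ F, rho τ₀ a x₀ = 0 → Piece327 s τ₀ x₀ κ K B (fun τ x => rho τ a x)
      (fun τ x => be τ a x)) :
    RegAt s (gfn η N rho be) τ₀ x₀ := by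
  classical
  have hmem : (τ₀, x₀) ∈ s ×ˢ (univ : Set E) := ⟨hτ₀, mem_univ _⟩
  have hch : ∀ a, ∃ f g : T → E → ℝ, a ∈ F → rho τ₀ a x₀ = 0 →
      (∀ᶠ p : T × E in 𝓝[s ×ˢ univ] (τ₀, x₀), rho p.1 a p.2 = min (f p.1 p.2) (g p.1 p.2)) ∧
      ContinuousWithinAt (fun p : T × E => f p.1 p.2) (s ×ˢ univ) (τ₀, x₀) ∧
      ContinuousWithinAt (fun p : T × E => g p.1 p.2) (s ×ˢ univ) (τ₀, x₀) ∧
      (f τ₀ x₀ = 0 → ∃ U ∈ 𝓝 x₀, ∀ᶠ τ in 𝓝[s] τ₀, Inc2 κ K (f τ) (be τ a) B U) ∧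
      (g τ₀ x₀ = 0 → ∃ U ∈ 𝓝 x₀, ∀ᶠ τ in 𝓝[s] τ₀, Inc2 κ K (g τ) (be τ a) B U) := by
    intro a
    by_cases ha : a ∈ F
    · by_cases ha0 : rho τ₀ a x₀ = 0
      · obtain ⟨f, g, H⟩ := hpc a ha ha0
        exact ⟨f, g, fun _ _ => H⟩
      · exact ⟨0, 0, fun _ h1 => absurd h1 ha0⟩
    · exact ⟨0, 0, fun h1 => absurd h1 ha⟩
  choose f g hfg using hch
  let H : A × Bool → T → E → ℝ := fun i τ x => if i.2 then f i.1 τ x else g i.1 τ x
  refine RegAt.of_inc2 (κ := κ) (K := K) hκ B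
    (Finset.univ.filter fun i : A × Bool => i.1 ∈ F ∧ rho τ₀ i.1 x₀ = 0 ∧
      H i τ₀ x₀ = 0) H (fun i τ x => be τ i.1 x) ?_ ?_
  · have h1 := h.active_rel hτ₀ h0 hdom
    have h2 : ∀ a, ∀ᶠ p : T × E in 𝓝[s ×ˢ univ] (τ₀, x₀), a ∈ F → rho τ₀ a x₀ = 0 →
        rho p.1 a p.2 = min (f a p.1 p.2) (g a p.1 p.2) ∧
        (f a τ₀ x₀ < g a τ₀ x₀ → f a p.1 p.2 < g a p.1 p.2) ∧
        (g a τ₀ x₀ < f a τ₀ x₀ → g a p.1 p.2 < f a p.1 p.2) := by
      intro a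
      by_cases ha : a ∈ F
      · by_cases ha0 : rho τ₀ a x₀ = 0
        · obtain ⟨e1, c1, c2, -, -⟩ := hfg a ha ha0
          have e2 : ∀ᶠ p : T × E in 𝓝[s ×ˢ univ] (τ₀, x₀),
              (f a τ₀ x₀ < g a τ₀ x₀ → f a p.1 p.2 < g a p.1 p.2) := by
            by_cases hl : f a τ₀ x₀ < g a τ₀ x₀
            · filter_upwards [Tendsto.eventually_lt c1 c2 hl] with p hp _ using hp
            · exact Eventually.of_forall fun p hp => absurd hp hl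
          have e3 : ∀ᶠ p : T × E in 𝓝[s ×ˢ univ] (τ₀, x₀),
              (g a τ₀ x₀ < f a τ₀ x₀ → g a p.1 p.2 < f a p.1 p.2) := by
            by_cases hl : g a τ₀ x₀ < f a τ₀ x₀
            · filter_upwards [Tendsto.eventually_lt c2 c1 hl] with p hp _ using hp
            · exact Eventually.of_forall fun p hp => absurd hp hl
          filter_upwards [e1, e2, e3] with p p1 p2 p3 _ _ using ⟨p1, p2, p3⟩
        · exact Eventually.of_forall fun p _ hp => absurd hp ha0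
      · exact Eventually.of_forall fun p hp => absurd hp ha
    obtain ⟨U, hU, hev⟩ := ev_prod (Q := fun τ x =>
      (∃ a ∈ F, rho τ₀ a x₀ = 0 ∧ gre rho τ x = rho τ a x) ∧
      ∀ a, a ∈ F → rho τ₀ a x₀ = 0 → rho τ a x = min (f a τ x) (g a τ x) ∧
        (f a τ₀ x₀ < g a τ₀ x₀ → f a τ x < g a τ x) ∧
        (g a τ₀ x₀ < f a τ₀ x₀ → g a τ x < f a τ x))
      (h1.and (eventually_all.mpr h2))
    refine ⟨U, hU, ?_⟩
    filter_upwards [hev] with τ hτ x hx y hy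
    obtain ⟨a, haF, ha0, hya⟩ := (hτ y hy).1
    have hxa : rho τ a x ≤ gre rho τ x := gre_ge τ a x
    obtain ⟨x1, x2, x3⟩ := (hτ x hx).2 a haF ha0
    obtain ⟨y1, -, -⟩ := (hτ y hy).2 a haF ha0
    have hmin0 : min (f a τ₀ x₀) (g a τ₀ x₀) = 0 := by
      rw [← ha0]
      exact ((hfg a haF ha0).1.self_of_nhdsWithin hmem).symm
    show ∃ i ∈ _, gre rho τ y - gre rho τ x ≤ _
    rcases le_total (f a τ x) (g a τ x) with hle | hle
    · refine ⟨(a, true), ?_, ?_⟩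
      · simp only [Finset.mem_filter, Finset.mem_univ, true_and, H, if_true]
        refine ⟨haF, ha0, ?_⟩
        by_contra hne
        have h4 : g a τ₀ x₀ < f a τ₀ x₀ := by
          by_contra h5
          rw [min_eq_left (not_lt.mp h5)] at hmin0
          exact hne hmin0
        exact absurd (x3 h4) (not_lt.mpr hle)
      · have h5 : rho τ a x = f a τ x := by rw [x1, min_eq_left hle]
        have h6 : rho τ a y ≤ f a τ y := by rw [y1]; exact min_le_left _ _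
        simp only [H, if_true]
        linarith
    · refine ⟨(a, false), ?_, ?_⟩
      · simp only [Finset.mem_filter, Finset.mem_univ, true_and, H, Bool.false_eq_true, if_false]
        refine ⟨haF, ha0, ?_⟩
        by_contra hne
        have h4 : f a τ₀ x₀ < g a τ₀ x₀ := by
          by_contra h5
          rw [min_eq_right (not_lt.mp h5)] at hmin0
          exact hne hmin0
        exact absurd (x2 h4) (not_lt.mpr hle)
      · have h5 : rho τ a x = g a τ x := by rw [x1, min_eq_right hle]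
        have h6 : rho τ a y ≤ g a τ y := by rw [y1]; exact min_le_right _ _
        simp only [H, Bool.false_eq_true, if_false]
        linarith
  · rintro ⟨a, b⟩ hi
    rw [Finset.mem_filter] at hi
    obtain ⟨-, hiF, hi1, hi2⟩ := hi
    obtain ⟨U, hU, hev⟩ := h.near hτ₀ hx₀ (a := a) (by
      have : rho τ₀ a x₀ = 0 := hi1
      rw [this])
    obtain ⟨-, -, -, k1, k2⟩ := hfg a hiF hi1
    have key : ∃ V ∈ 𝓝 x₀, ∀ᶠ τ in 𝓝[s] τ₀, Inc2 κ K (H (a, b) τ) (be τ a) B V := by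
      cases b with
      | false =>
        have := k2 (by simpa [H] using hi2)
        simpa [H] using this
      | true =>
        have := k1 (by simpa [H] using hi2)
        simpa [H] using this
    obtain ⟨V, hV, hev'⟩ := key
    refine ⟨U ∩ V, inter_mem hU hV, ?_⟩
    filter_upwards [hev, hev'] with τ e1 e2
    exact ⟨e2.mono inter_subset_right, fun x hx => e1 x hx.1⟩

/-- The zeros of a glued function: one active sheet with vanishing imaginary part. -/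
theorem Glue.eq_zero_iff (h : Glue s η N rho be) {τ : T} (hτ : τ ∈ s) (x : E) :
    gfn η N rho be τ x = 0 ↔ gre rho τ x = 0 ∧ ∀ a, N x ≠ 0 → rho τ a x = 0 → be τ a x = 0 := by
  have hη := h.hη
  constructor
  · intro h0
    have h1 : gre rho τ x = 0 := congrArg Complex.re h0
    have h2 : gim η N rho be τ x = 0 := congrArg Complex.im h0
    refine ⟨h1, fun a hx ha => ?_⟩
    have hn : 0 < N x := lt_of_le_of_ne (h.nN x) (Ne.symm hx)
    rw [← h.im_eq hτ hx (a := a) (by rw [ha]; nlinarith), h2]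
  · rintro ⟨h1, h2⟩
    apply Complex.ext
    · exact h1
    · show gim η N rho be τ x = 0
      by_cases hx : N x = 0
      · exact h.im_zero hτ hx
      · obtain ⟨a, ha⟩ := exists_gre rho τ x
        have hn : 0 < N x := lt_of_le_of_ne (h.nN x) (Ne.symm hx)
        have ha0 : rho τ a x = 0 := by rw [← ha, h1]
        rw [h.im_eq hτ hx (a := a) (by rw [ha0]; nlinarith), h2 a hx ha0]

end Rel

section Sheet

variable {T E V : Type*} [TopologicalSpace T] [NormedAddCommGroup E] [NormedSpace ℝ E]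
  [NormedAddCommGroup V] [InnerProductSpace ℝ V] {s : Set T}

theorem norm_rim_le {ω ν₀ : V} (hω : ‖ω‖ ≤ 1) (hν : ‖ν₀‖ = 1) (c : ℂ) :
    ‖c.re • ω + c.im • ν₀‖ ≤ |c.re| + |c.im| := by
  refine (norm_add_le _ _).trans ?_
  rw [norm_smul, norm_smul, hν, mul_one, Real.norm_eq_abs, Real.norm_eq_abs]
  have : |c.re| * ‖ω‖ ≤ |c.re| * 1 := mul_le_mul_of_nonneg_left hω (abs_nonneg _)
  linarith

/-- Local conditions for one sheet at a point where it has radial part zero. -/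
structure SheetDir (s : Set T) (τ₀ : T) (x₀ : E) (w ν : T → E → V) (r : T → E → ℝ)
    (D : V →L[ℝ] E) (u : E) : Prop where
  cw : ContinuousWithinAt (fun p : T × E => w p.1 p.2) (s ×ˢ univ) (τ₀, x₀)
  cn : ContinuousWithinAt (fun p : T × E => ν p.1 p.2) (s ×ˢ univ) (τ₀, x₀)
  nn : ∀ᶠ p : T × E in 𝓝[s ×ˢ univ] (τ₀, x₀), ‖ν p.1 p.2‖ = 1
  dir : ∀ κ : ℝ, 0 < κ → ∃ U ∈ 𝓝 x₀, ∀ᶠ τ in 𝓝[s] τ₀, ∀ y ∈ U, ∀ (v : V) (l : ℝ),
    y + (D v + l • u) ∈ U →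
      ‖w τ (y + (D v + l • u)) - w τ y - v‖ ≤ κ * ‖v‖ + |l| / 8 ∧
      |r τ (y + (D v + l • u)) - r τ y| ≤ κ * ‖v‖ + |l| / 8 ∧
      (1 + ‖w τ₀ x₀‖) * ‖ν τ (y + (D v + l • u)) - ν τ y‖ ≤ κ * ‖v‖ + |l| / 8

/-- **The increments of one sheet** at a point of its rim. -/
theorem SheetDir.inc2 {τ₀ : T} {x₀ : E} {w ν : T → E → V} {r : T → E → ℝ}
    {D : V →L[ℝ] E} {u : E} (H : SheetDir s τ₀ x₀ w ν r D u) (hτ₀ : τ₀ ∈ s)
    {ω ν₀ : V} (hω : ‖ω‖ = 1) (hων : inner ℝ ω ν₀ = 0) (hν₀ : ν τ₀ x₀ = ν₀)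
    (hw0 : w τ₀ x₀ ≠ 0) (hwω : w τ₀ x₀ = -(‖w τ₀ x₀‖ • ω)) {K : ℝ} (hK : 7 ≤ K) :
    ∃ U ∈ 𝓝 x₀, ∀ᶠ τ in 𝓝[s] τ₀, Inc2 (1 / 4) K (fun x => r τ x - ‖w τ x‖)
      (fun x => inner ℝ (w τ x) (ν τ x)) (SheetData.rimA D u ω ν₀) U := by
  have hmem : (τ₀, x₀) ∈ s ×ˢ (univ : Set E) := ⟨hτ₀, mem_univ _⟩
  have hν1 : ‖ν₀‖ = 1 := by rw [← hν₀]; exact H.nn.self_of_nhdsWithin hmem
  have hwp : 0 < ‖w τ₀ x₀‖ := norm_pos_iff.mpr hw0
  obtain ⟨U, hU, hev⟩ := H.dir (1 / 64) (by norm_num)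
  have c3 := H.cn.eventually (Metric.ball_mem_nhds _ (show (0 : ℝ) < 1 / 64 by norm_num))
  have c4 : ∀ᶠ p : T × E in 𝓝[s ×ˢ univ] (τ₀, x₀), ‖w p.1 p.2‖ < 1 + ‖w τ₀ x₀‖ :=
    H.cw.norm.eventually (gt_mem_nhds (by linarith : ‖w τ₀ x₀‖ < 1 + ‖w τ₀ x₀‖))
  have h3 := norm_incr hw0 (show (0 : ℝ) < 1 / 64 by norm_num)
  rw [nhds_prod_eq, eventually_prod_iff] at h3
  obtain ⟨pa, ha', pb, hb', hab⟩ := h3
  have c5 : ∀ᶠ p : T × E in 𝓝[s ×ˢ univ] (τ₀, x₀), pa (w p.1 p.2) ∧ pb (w p.1 p.2) :=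
    H.cw.eventually (ha'.and hb')
  obtain ⟨U', hU', hev'⟩ := ev_prod (Q := fun τ x => ‖ν τ x‖ = 1 ∧
      ν τ x ∈ Metric.ball (ν τ₀ x₀) (1 / 64) ∧ ‖w τ x‖ < 1 + ‖w τ₀ x₀‖ ∧
      pa (w τ x) ∧ pb (w τ x)) (H.nn.and (c3.and (c4.and c5)))
  refine ⟨U ∩ U', inter_mem hU hU', ?_⟩
  filter_upwards [hev, hev'] with τ e1 e2 y hy c hc
  rw [SheetData.rimA_apply] at hc
  set v : V := c.re • ω + c.im • ν₀ with hv
  obtain ⟨d1, d2, d3⟩ := e1 y hy.1 v c.re hc.1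
  obtain ⟨-, -, f3, f4, -⟩ := e2 y hy.2
  obtain ⟨g1, g2, -, -, g5⟩ := e2 _ hc.2
  show _ * _ ≤ (r τ (y + SheetData.rimA D u ω ν₀ c) - ‖w τ (y + SheetData.rimA D u ω ν₀ c)‖ -
      (r τ y - ‖w τ y‖)) * c.re +
      (inner ℝ (w τ (y + SheetData.rimA D u ω ν₀ c)) (ν τ (y + SheetData.rimA D u ω ν₀ c)) -
      inner ℝ (w τ y) (ν τ y)) * c.im ∧
      |r τ (y + SheetData.rimA D u ω ν₀ c) - ‖w τ (y + SheetData.rimA D u ω ν₀ c)‖ -
      (r τ y - ‖w τ y‖)| ≤ K * ‖c‖ ∧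
      |inner ℝ (w τ (y + SheetData.rimA D u ω ν₀ c)) (ν τ (y + SheetData.rimA D u ω ν₀ c)) -
      inner ℝ (w τ y) (ν τ y)| ≤ K * ‖c‖
  rw [SheetData.rimA_apply, ← hv]
  set y' := y + (D v + c.re • u) with hy'
  have hvn : ‖v‖ ≤ |c.re| + |c.im| := norm_rim_le hω.le hν1 c
  have hv0 := norm_nonneg v
  have hcr := Complex.abs_re_le_norm c
  have hci := Complex.abs_im_le_norm c
  have hr0 := abs_nonneg c.re
  have hi0 := abs_nonneg c.im
  have hnc : ‖c‖ ^ 2 = c.re ^ 2 + c.im ^ 2 := by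
    rw [Complex.sq_norm, Complex.normSq_apply]; ring
  have hn0 := norm_nonneg c
  have hKc : 7 * ‖c‖ ≤ K * ‖c‖ := mul_le_mul_of_nonneg_right hK hn0
  have g2' : ‖ν τ y' - ν τ₀ x₀‖ ≤ 1 / 64 := by
    have := Metric.mem_ball.mp g2
    rw [dist_eq_norm] at this
    exact this.le
  have b1 := be_est g1 d1 g2' f3.le d3
  have hvν : inner ℝ v (ν τ₀ x₀) = c.im := by
    rw [hν₀, hv, inner_add_left, real_inner_smul_left, real_inner_smul_left, hων,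
      real_inner_self_eq_norm_sq, hν1]
    ring
  rw [hvν] at b1
  have hb1 : |inner ℝ (w τ y') (ν τ y') - inner ℝ (w τ y) (ν τ y) - c.im| ≤
      1 / 16 * (|c.re| + |c.im|) + 3 / 8 * |c.re| := by
    refine b1.trans ?_
    linarith
  have t1 := tp_est (v := v) (r := r τ y) (r' := r τ y') d1 d2 (by norm_num) (hab f4 g5) hw0
  have hwv : inner ℝ (w τ₀ x₀) v / ‖w τ₀ x₀‖ = -c.re := by
    have h3 : inner ℝ (w τ₀ x₀) v = -(‖w τ₀ x₀‖ * c.re) := by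
      conv_lhs => rw [hwω]
      rw [hv, inner_neg_left, real_inner_smul_left, inner_add_right, real_inner_smul_right,
        real_inner_smul_right, real_inner_self_eq_norm_sq, hω, hων]
      ring
    rw [h3, neg_div, mul_comm, mul_div_cancel_right₀ _ hwp.ne']
  rw [hwv, ← sub_eq_add_neg] at t1
  have ht : |(r τ y' - ‖w τ y'‖) - (r τ y - ‖w τ y‖) - c.re| ≤
      1 / 16 * (|c.re| + |c.im|) + 3 / 8 * |c.re| := by
    refine t1.trans ?_
    linarith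
  refine ⟨?_, ?_, ?_⟩
  · rw [hnc]; exact SheetData.rim_alg1 hb1 ht
  · have h2 := abs_add_le ((r τ y' - ‖w τ y'‖) - (r τ y - ‖w τ y‖) - c.re) c.re
    rw [sub_add_cancel] at h2
    linarith
  · have h2 := abs_add_le (inner ℝ (w τ y') (ν τ y') - inner ℝ (w τ y) (ν τ y) - c.im) c.im
    rw [sub_add_cancel] at h2
    linarith

end Sheet

end Vale.Agent.P268.T
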