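import Vale.Agent.P268.T.H327.Pieces

/-!
# P268, topological half: regularity of the hairpin form at its zeros
-/

set_option linter.unusedSectionVars false

namespace Vale.Agent.P268.T

open Set Filter Topology Metric

variable {T V κ ι : Type*} [TopologicalSpace T] [NormedAddCommGroup V] [InnerProductSpace ℝ V]
  [Fintype ι] [DecidableEq ι] {s : Set T} {i₀ : ι} {e : V} {ε R M K : T → ℝ}
  {D : T → HData κ (ι → ℝ) V}

theorem continuousOn_wq {c : T → ℝ} (hc : ContinuousOn c s) :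
    ContinuousOn (fun p : T × ((ℝ × (ι → ℝ)) × V) => wq i₀ (c p.1) p.2.1) (s ×ˢ univ) := by
  have h1 : ContinuousOn (fun p : T × ((ℝ × (ι → ℝ)) × V) => c p.1) (s ×ˢ univ) :=
    hc.comp continuousOn_fst fun p hp => hp.1
  have h2 : Continuous fun p : T × ((ℝ × (ι → ℝ)) × V) => p.2.1.2 i₀ := by fun_prop
  have h3 : Continuous fun p : T × ((ℝ × (ι → ℝ)) × V) => max |p.2.1.1| (2 * ‖p.2.1.2‖) / 2 := by
    fun_prop
  unfold wq
  exact h2.continuousOn.sub (h1.mul h3.continuousOn)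

theorem continuousOn_hplates_σ (cM : ContinuousOn M s) (cK : ContinuousOn K s)
    (hD : HPFam s i₀ e D) (a : HIx κ) :
    ContinuousOn (fun p : T × ((ℝ × (ι → ℝ)) × V) => (hplates i₀ e ε R M K D).σ p.1 a p.2)
      (s ×ˢ univ) := by
  have hM : ContinuousOn (fun p : T × ((ℝ × (ι → ℝ)) × V) => M p.1) (s ×ˢ univ) :=
    cM.comp continuousOn_fst fun p hp => hp.1
  have hK : ContinuousOn (fun p : T × ((ℝ × (ι → ℝ)) × V) => K p.1) (s ×ˢ univ) :=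
    cK.comp continuousOn_fst fun p hp => hp.1
  have hr : ContinuousOn (fun p : T × ((ℝ × (ι → ℝ)) × V) => (D p.1).r0) (s ×ˢ univ) :=
    hD.cr.comp continuousOn_fst fun p hp => hp.1
  have hq : ContinuousOn (fun p : T × ((ℝ × (ι → ℝ)) × V) => wq i₀ (D p.1).c p.2.1)
    (s ×ˢ univ) := continuousOn_wq hD.cc
  have hn : Continuous fun p : T × ((ℝ × (ι → ℝ)) × V) => ‖p.2.1‖ := by fun_prop
  have h1 : Continuous fun p : T × ((ℝ × (ι → ℝ)) × V) => ‖p.2.1.2‖ - |p.2.1.1| := by fun_prop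
  have h2 : Continuous fun p : T × ((ℝ × (ι → ℝ)) × V) => p.2.1.1 - ‖p.2.1.2‖ / 2 := by fun_prop
  match a with
  | .slab => exact hM.mul h1.continuousOn
  | .sh (.inl a) => exact hM.mul h2.continuousOn
  | .sh (.inr b) =>
    exact (hM.mul h2.continuousOn).inf
      (hM.mul ((hK.mul hq).neg.sub ((continuousOn_const.mul hr).mul hn.continuousOn)))
  | .fold =>
    exact (hM.mul h2.continuousOn).inf
      (hM.mul ((hK.mul hq).add ((continuousOn_const.mul hr).mul hn.continuousOn)))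

theorem continuousOn_hplates_r (cε : ContinuousOn ε s) (cR : ContinuousOn R s) (a : HIx κ) :
    ContinuousOn (fun p : T × ((ℝ × (ι → ℝ)) × V) => (hplates i₀ e ε R M K D).r p.1 a p.2)
      (s ×ˢ univ) := by
  have hε : ContinuousOn (fun p : T × ((ℝ × (ι → ℝ)) × V) => ε p.1) (s ×ˢ univ) :=
    cε.comp continuousOn_fst fun p hp => hp.1
  have hR : ContinuousOn (fun p : T × ((ℝ × (ι → ℝ)) × V) => R p.1) (s ×ˢ univ) :=
    cR.comp continuousOn_fst fun p hp => hp.1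
  have hn : Continuous fun p : T × ((ℝ × (ι → ℝ)) × V) => ‖p.2.1‖ := by fun_prop
  match a with
  | .slab => exact hR.mul hn.continuousOn
  | .sh a => exact hε.mul hn.continuousOn
  | .fold => exact hε.mul hn.continuousOn

/-- A zero with one active plate `X` beside the slab. -/
theorem pair_regAt [Fintype κ] (cε : ContinuousOn ε s) (cR : ContinuousOn R s)
    (cM : ContinuousOn M s) (cK : ContinuousOn K s) (hD : HPFam s i₀ e D) (he : ‖e‖ = 1)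
    {η : ℝ} (G : Glue s η (fun x => ‖x.1‖) (hplates i₀ e ε R M K D).rho
      (hplates i₀ e ε R M K D).be)
    {τ₀ : T} (hτ₀ : τ₀ ∈ s) {x₀ : (ℝ × (ι → ℝ)) × V} (hx₀ : x₀.1 ≠ 0) (hε : 0 < ε τ₀)
    (h0 : gre (hplates i₀ e ε R M K D).rho τ₀ x₀ = 0) {X : HIx κ} (hX : X ≠ .slab)
    (hX0 : (hplates i₀ e ε R M K D).rho τ₀ X x₀ = 0)
    (hσX : 0 < (hplates i₀ e ε R M K D).σ τ₀ X x₀)
    (hbX : (hplates i₀ e ε R M K D).be τ₀ X x₀ = 0) (hv : ‖x₀.2‖ < R τ₀ * ‖x₀.1‖)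
    (hdom : ∀ Y, Y ≠ .slab → Y ≠ X → (hplates i₀ e ε R M K D).rho τ₀ Y x₀ < 0 ∨
      ∀ᶠ p : T × ((ℝ × (ι → ℝ)) × V) in 𝓝[s ×ˢ univ] (τ₀, x₀),
        (hplates i₀ e ε R M K D).rho p.1 Y p.2 ≤ (hplates i₀ e ε R M K D).rho p.1 X p.2)
    {D' : V →L[ℝ] (ℝ × (ι → ℝ)) × V} {us : ℝ × (ι → ℝ)} {δ : ℝ}
    (SD : SheetDir s τ₀ x₀ (fun τ x => (hplates i₀ e ε R M K D).w τ X x)
      (fun τ x => (hplates i₀ e ε R M K D).ν τ X x)
      (fun τ x => (hplates i₀ e ε R M K D).r τ X x) D' (us, (0 : V)))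
    (hslab : (hplates i₀ e ε R M K D).σ τ₀ .slab x₀ = 0 →
      (hplates i₀ e ε R M K D).ν τ₀ X x₀ = e ∧ (∀ v, inner ℝ (D' v).2 e = inner ℝ v e) ∧
      1 / 2 ≤ M τ₀ * δ ∧ ∃ U ∈ 𝓝 x₀, ∀ y ∈ U, ∀ (v : V) (l : ℝ),
        y + (D' v + l • (us, (0 : V))) ∈ U →
        (‖(y + (D' v + l • (us, (0 : V)))).1.2‖ - |(y + (D' v + l • (us, (0 : V)))).1.1|) -
          (‖y.1.2‖ - |y.1.1|) = δ * l) :
    RegAt s ((hplates i₀ e ε R M K D).fn η (fun x => ‖x.1‖)) τ₀ x₀ := by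
  set P := hplates i₀ e ε R M K D with hP
  have hmem : (τ₀, x₀) ∈ s ×ˢ (univ : Set ((ℝ × (ι → ℝ)) × V)) := ⟨hτ₀, mem_univ _⟩
  have hg : 0 < ‖x₀.1‖ := norm_pos_iff.mpr hx₀
  have htp : P.tp τ₀ X x₀ = 0 := by
    have h1 : min (P.tp τ₀ X x₀) (P.σ τ₀ X x₀) = 0 := hX0
    rcases min_choice (P.tp τ₀ X x₀) (P.σ τ₀ X x₀) with h2 | h2
    · rw [← h2, h1]
    · rw [h2] at h1; exact absurd h1 hσX.ne'
  have hr : P.r τ₀ X x₀ = ε τ₀ * ‖x₀.1‖ := by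
    match X, hX with
    | .sh a, _ => rfl
    | .fold, _ => rfl
  have hwn : ‖P.w τ₀ X x₀‖ = ε τ₀ * ‖x₀.1‖ := by
    have : P.r τ₀ X x₀ - ‖P.w τ₀ X x₀‖ = 0 := htp
    rw [← hr]; linarith
  have hwp : 0 < ‖P.w τ₀ X x₀‖ := by rw [hwn]; positivity
  have hw0 : P.w τ₀ X x₀ ≠ 0 := norm_pos_iff.mp hwp
  set ν₀ := P.ν τ₀ X x₀ with hν₀
  set ω : V := -(‖P.w τ₀ X x₀‖⁻¹ • P.w τ₀ X x₀) with hω
  have hω1 : ‖ω‖ = 1 := by
    rw [hω, norm_neg, norm_smul, norm_inv, norm_norm, inv_mul_cancel₀ hwp.ne']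
  have hων : inner ℝ ω ν₀ = 0 := by
    rw [hω, inner_neg_left, real_inner_smul_left]
    have h1 : inner ℝ (P.w τ₀ X x₀) ν₀ = 0 := hbX
    rw [h1, mul_zero, neg_zero]
  have hwω : P.w τ₀ X x₀ = -(‖P.w τ₀ X x₀‖ • ω) := by
    rw [hω, smul_neg, neg_neg, smul_smul, mul_inv_cancel₀ hwp.ne', one_smul]
  have ctX : ContinuousWithinAt (fun p : T × ((ℝ × (ι → ℝ)) × V) => P.tp p.1 X p.2)
      (s ×ˢ univ) (τ₀, x₀) :=
    (continuousOn_hplates_r cε cR X (τ₀, x₀) hmem).sub SD.cw.norm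
  have ctS : ContinuousWithinAt (fun p : T × ((ℝ × (ι → ℝ)) × V) => P.tp p.1 .slab p.2)
      (s ×ˢ univ) (τ₀, x₀) := by
    have h1 : ContinuousWithinAt (fun p : T × ((ℝ × (ι → ℝ)) × V) => ‖p.2.2‖)
      (s ×ˢ univ) (τ₀, x₀) := by fun_prop
    exact (continuousOn_hplates_r cε cR .slab (τ₀, x₀) hmem).sub h1
  have htS : 0 < P.tp τ₀ .slab x₀ := by
    show 0 < R τ₀ * ‖x₀.1‖ - ‖x₀.2‖
    linarith
  refine G.regAt_rel hτ₀ hg.ne' h0 {.slab, X} (κ := 1 / 4) (K := max 7 (1 + 2 * (M τ₀ * δ)))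
    ?_ (by norm_num) (SheetData.rimA D' (us, (0 : V)) ω ν₀) ?_
  · intro Y hY
    simp only [mem_insert_iff, mem_singleton_iff, not_or] at hY
    rcases hdom Y hY.1 hY.2 with h1 | h1
    · exact Or.inl h1
    · exact Or.inr ⟨X, by simp, h1⟩
  · intro a ha ha0
    simp only [mem_insert_iff, mem_singleton_iff] at ha
    rcases ha with rfl | rfl
    · refine ⟨fun τ x => P.tp τ .slab x, fun τ x => P.σ τ .slab x,
        Eventually.of_forall fun p => rfl, ctS, continuousOn_hplates_σ cM cK hD _ _ hmem,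
        fun h1 => absurd h1 htS.ne', fun h1 => ?_⟩
      obtain ⟨k1, k2, k3, k4⟩ := hslab h1
      have k5 : inner ℝ ω e = 0 := by rw [← k1]; exact hων
      have := slab_front_inc2 (s := s) (x₀ := x₀) (cM τ₀ hτ₀) k3 he k5 k2 k4
        (K := max 7 (1 + 2 * (M τ₀ * δ))) (le_max_right _ _)
      rw [k1]
      exact this
    · exact ⟨fun τ x => P.tp τ a x, fun τ x => P.σ τ a x,
        Eventually.of_forall fun p => rfl, ctX, continuousOn_hplates_σ cM cK hD _ _ hmem,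
        fun _ => SD.inc2 hτ₀ hω1 hων rfl hw0 hwω (le_max_left _ _),
        fun h1 => absurd h1 hσX.ne'⟩

/-- Directions: `us = 0`, or the front direction at the front of the slab. -/
theorem exists_dir327 (i₀ : ι) {s₀ : ℝ × (ι → ℝ)} (hs : s₀ ≠ 0) {ρ : ℝ} (hρ : 0 < ρ) :
    ∃ (us : ℝ × (ι → ℝ)) (δ : ℝ), 0 ≤ δ ∧ δ * ρ ≤ 1 / 64 ∧ HDir i₀ s₀ us δ ∧
      (‖s₀.2‖ = |s₀.1| → SDir i₀ s₀ us δ ∧ 1 / 64 ≤ δ * ρ) := by
  by_cases h : ‖s₀.2‖ = |s₀.1|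
  · have h1 : s₀.1 ≠ 0 := by
      intro h0
      apply hs
      have : s₀.2 = 0 := by rw [← norm_eq_zero, h, h0, abs_zero]
      exact Prod.ext h0 this
    obtain ⟨ς, hς, hς1⟩ := exists_sign h1
    have hδ : 0 ≤ 1 / (64 * ρ) := by positivity
    have e1 : 1 / (64 * ρ) * ρ = 1 / 64 := by field_simp
    obtain ⟨k1, k2⟩ := hdir_front i₀ h.symm hς hς1 hδ
    exact ⟨_, _, hδ, e1.le, k1, fun _ => ⟨k2, e1.ge⟩⟩
  · exact ⟨0, 0, le_rfl, by norm_num, hdir_zero i₀ hs, fun h1 => absurd h1 h⟩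

theorem HDir.plain {s₀ us : ℝ × (ι → ℝ)} {δ : ℝ} (H : HDir i₀ s₀ us δ) :
    ∃ U ∈ 𝓝 s₀, ∀ y ∈ U, ∀ l : ℝ, y + l • us ∈ U →
      kap (y + l • us) = kap y ∧ |‖y + l • us‖ - ‖y‖| ≤ δ * |l| := by
  obtain ⟨U, hU, h⟩ := H.base
  exact ⟨U, hU, fun y hy l hl => ⟨(h y hy l hl).2.2.1, (h y hy l hl).2.2.2.2⟩⟩

/-- The slab condition for directions in the fibre. -/
theorem SDir.slab {x₀ : (ℝ × (ι → ℝ)) × V} {us : ℝ × (ι → ℝ)} {δ : ℝ} (H : SDir i₀ x₀.1 us δ)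
    {D' : V →L[ℝ] (ℝ × (ι → ℝ)) × V} (hD' : ∀ v, (D' v).1 = 0) :
    ∃ U ∈ 𝓝 x₀, ∀ y ∈ U, ∀ (v : V) (l : ℝ), y + (D' v + l • (us, (0 : V))) ∈ U →
      (‖(y + (D' v + l • (us, (0 : V)))).1.2‖ - |(y + (D' v + l • (us, (0 : V)))).1.1|) -
        (‖y.1.2‖ - |y.1.1|) = δ * l := by
  obtain ⟨U, hU, h⟩ := H.base
  refine ⟨Prod.fst ⁻¹' U, continuous_fst.continuousAt.preimage_mem_nhds hU, ?_⟩
  intro y hy v l hy'
  have e1 : (y + (D' v + l • (us, (0 : V)))).1 = y.1 + l • us := by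
    simp [hD']
  have h2 : y.1 + l • us ∈ U := by rw [← e1]; exact hy'
  rw [e1]
  exact h y.1 hy l h2

/-- The slab condition for the direction of the tip. -/
theorem SDir.slab_tip {x₀ : (ℝ × (ι → ℝ)) × V} {us : ℝ × (ι → ℝ)} {δ : ℝ}
    (H : SDir i₀ x₀.1 us δ) (hk : |kap x₀.1 i₀| < 1) {k : ℝ} {ph : V}
    {D' : V →L[ℝ] (ℝ × (ι → ℝ)) × V}
    (hD' : ∀ v, (D' v).1 = (inner ℝ v ph : ℝ) • ((0 : ℝ), (Pi.single i₀ k : ι → ℝ))) :
    ∃ U ∈ 𝓝 x₀, ∀ y ∈ U, ∀ (v : V) (l : ℝ), y + (D' v + l • (us, (0 : V))) ∈ U →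
      (‖(y + (D' v + l • (us, (0 : V)))).1.2‖ - |(y + (D' v + l • (us, (0 : V)))).1.1|) -
        (‖y.1.2‖ - |y.1.1|) = δ * l := by
  obtain ⟨U, hU, h⟩ := H.wall hk
  refine ⟨Prod.fst ⁻¹' U, continuous_fst.continuousAt.preimage_mem_nhds hU, ?_⟩
  intro y hy v l hy'
  have e1 : (y + (D' v + l • (us, (0 : V)))).1 =
      y.1 + ((0, Pi.single i₀ (inner ℝ v ph * k)) + l • us) := by
    have e2 : (inner ℝ v ph : ℝ) • ((0 : ℝ), (Pi.single i₀ k : ι → ℝ)) =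
        (0, Pi.single i₀ (inner ℝ v ph * k)) := by
      rw [Prod.smul_mk, smul_zero, ← Pi.single_smul, smul_eq_mul]
    rw [Prod.fst_add, Prod.fst_add, hD', e2, Prod.smul_fst]
  have h2 : y.1 + ((0, Pi.single i₀ (inner ℝ v ph * k)) + l • us) ∈ U := by
    rw [← e1]; exact hy'
  rw [e1]
  exact h y.1 hy _ l h2

/-- A zero where only the slab is active. -/
theorem single_regAt [Fintype κ] (cε : ContinuousOn ε s) (cR : ContinuousOn R s)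
    (cM : ContinuousOn M s) (cK : ContinuousOn K s) (hD : HPFam s i₀ e D) (he : ‖e‖ = 1)
    {η : ℝ} (G : Glue s η (fun x => ‖x.1‖) (hplates i₀ e ε R M K D).rho
      (hplates i₀ e ε R M K D).be)
    {τ₀ : T} (hτ₀ : τ₀ ∈ s) {x₀ : (ℝ × (ι → ℝ)) × V} (hx₀ : x₀.1 ≠ 0) (hR : 0 < R τ₀)
    (hM : 32 * R τ₀ ≤ M τ₀)
    (h0 : gre (hplates i₀ e ε R M K D).rho τ₀ x₀ = 0)
    (hb : inner ℝ x₀.2 e = 0)
    (hdom : ∀ Y, Y ≠ .slab → (hplates i₀ e ε R M K D).rho τ₀ Y x₀ < 0) :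
    RegAt s ((hplates i₀ e ε R M K D).fn η (fun x => ‖x.1‖)) τ₀ x₀ := by
  set P := hplates i₀ e ε R M K D with hP
  have hmem : (τ₀, x₀) ∈ s ×ˢ (univ : Set ((ℝ × (ι → ℝ)) × V)) := ⟨hτ₀, mem_univ _⟩
  have hg : 0 < ‖x₀.1‖ := norm_pos_iff.mpr hx₀
  obtain ⟨us, δ, hδ0, hδ1, HD, HS⟩ := exists_dir327 i₀ hx₀ hR
  have ctS : ContinuousWithinAt (fun p : T × ((ℝ × (ι → ℝ)) × V) => P.tp p.1 .slab p.2)
      (s ×ˢ univ) (τ₀, x₀) := by
    have h1 : ContinuousWithinAt (fun p : T × ((ℝ × (ι → ℝ)) × V) => ‖p.2.2‖)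
      (s ×ˢ univ) (τ₀, x₀) := by fun_prop
    exact (continuousOn_hplates_r cε cR .slab (τ₀, x₀) hmem).sub h1
  have SD : SheetDir s τ₀ x₀ (fun τ x => P.w τ .slab x) (fun τ x => P.ν τ .slab x)
      (fun τ x => P.r τ .slab x) (ContinuousLinearMap.inr ℝ (ℝ × (ι → ℝ)) V)
      (us, (0 : V)) := by
    have h1 := sheetDir_plain (s := s) (τ₀ := τ₀) (x₀ := x₀) (c := fun _ _ => (0 : V))
      (n := fun _ _ => e) (ρ := R) continuousOn_const continuousOn_const cR hτ₀ hx₀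
      (Eventually.of_forall fun _ => he) hR.le HD.plain (by norm_num) (by linarith)
    have e1 : (fun (τ : T) (x : (ℝ × (ι → ℝ)) × V) => x.2 - ‖x.1‖ • (0 : V)) =
        fun τ x => P.w τ .slab x := by
      funext τ x
      rw [smul_zero, sub_zero]
      rfl
    rw [e1] at h1
    exact h1
  have hMδ : ‖x₀.1.2‖ = |x₀.1.1| → 1 / 2 ≤ M τ₀ * δ := fun h1 => by
    have h2 := (HS h1).2
    have h3 : 32 * R τ₀ * δ ≤ M τ₀ * δ := mul_le_mul_of_nonneg_right hM hδ0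
    linarith
  obtain ⟨ω, hω1, hωe, hω2⟩ : ∃ ω : V, ‖ω‖ ≤ 1 ∧ inner ℝ ω e = 0 ∧
      (P.tp τ₀ .slab x₀ = 0 → ‖ω‖ = 1 ∧ x₀.2 ≠ 0 ∧ x₀.2 = -(‖x₀.2‖ • ω)) := by
    by_cases ht : P.tp τ₀ .slab x₀ = 0
    · have h1 : R τ₀ * ‖x₀.1‖ - ‖x₀.2‖ = 0 := ht
      have h2 : 0 < ‖x₀.2‖ := by
        have : 0 < R τ₀ * ‖x₀.1‖ := by positivity
        linarith
      have h3 : ‖-(‖x₀.2‖⁻¹ • x₀.2)‖ = 1 := by
        rw [norm_neg, norm_smul, norm_inv, norm_norm, inv_mul_cancel₀ h2.ne']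
      refine ⟨-(‖x₀.2‖⁻¹ • x₀.2), h3.le, ?_, fun _ => ⟨h3, norm_pos_iff.mp h2, ?_⟩⟩
      · rw [inner_neg_left, real_inner_smul_left, hb, mul_zero, neg_zero]
      · rw [smul_neg, neg_neg, smul_smul, mul_inv_cancel₀ h2.ne', one_smul]
    · exact ⟨0, by simp, inner_zero_left _, fun h1 => absurd h1 ht⟩
  refine G.regAt_rel hτ₀ hg.ne' h0 {.slab} (κ := 1 / 4) (K := max 7 (1 + 2 * (M τ₀ * δ)))
    ?_ (by norm_num) (SheetData.rimA (ContinuousLinearMap.inr ℝ (ℝ × (ι → ℝ)) V)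
      (us, (0 : V)) ω e) ?_
  · intro Y hY
    exact Or.inl (hdom Y (by simpa using hY))
  · intro a ha ha0
    rw [mem_singleton_iff] at ha
    subst ha
    refine ⟨fun τ x => P.tp τ .slab x, fun τ x => P.σ τ .slab x,
      Eventually.of_forall fun p => rfl, ctS, continuousOn_hplates_σ cM cK hD _ _ hmem,
      fun h1 => ?_, fun h1 => ?_⟩
    · obtain ⟨k1, k2, k3⟩ := hω2 h1
      exact SD.inc2 hτ₀ k1 hωe rfl k2 k3 (le_max_left _ _)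
    · have h2 : M τ₀ * (‖x₀.1.2‖ - |x₀.1.1|) = 0 := h1
      have hMp : 0 < M τ₀ := by linarith
      have h3 : ‖x₀.1.2‖ = |x₀.1.1| := by
        have := (mul_eq_zero.mp h2).resolve_left hMp.ne'
        linarith
      exact slab_front_inc2 (s := s) (x₀ := x₀) (cM τ₀ hτ₀) (hMδ h3) he hωe
        (fun v => by simp) ((HS h3).1.slab fun v => by simp)
        (K := max 7 (1 + 2 * (M τ₀ * δ))) (le_max_right _ _)

/-- The direction of a sheet in fibre form. -/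
theorem sh_sheetDir (cε : ContinuousOn ε s) (hD : HPFam s i₀ e D) {τ₀ : T} (hτ₀ : τ₀ ∈ s)
    {x₀ : (ℝ × (ι → ℝ)) × V} (hx₀ : x₀.1 ≠ 0) (hε : 0 < ε τ₀) (a : κ ⊕ Bool)
    {us : ℝ × (ι → ℝ)} {δ : ℝ} (HD : HDir i₀ x₀.1 us δ)
    (h1 : δ * ‖(D τ₀).cen i₀ a (kap x₀.1)‖ < 1 / 8) (h2 : δ * ε τ₀ < 1 / 8) :
    SheetDir s τ₀ x₀ (fun τ x => (hplates i₀ e ε R M K D).w τ (.sh a) x)
      (fun τ x => (hplates i₀ e ε R M K D).ν τ (.sh a) x)
      (fun τ x => (hplates i₀ e ε R M K D).r τ (.sh a) x)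
      (ContinuousLinearMap.inr ℝ (ℝ × (ι → ℝ)) V) (us, (0 : V)) := by
  refine sheetDir_plain (c := fun τ => (D τ).cen i₀ a) (n := fun τ => (D τ).nor i₀ a)
    (hD.continuousOn_cen a) (hD.continuousOn_nor a) cε hτ₀ hx₀ ?_ hε.le HD.plain h1 h2
  filter_upwards [self_mem_nhdsWithin] with p hp
  have hk := norm_kap_le p.2.1
  have hc := hD.hc p.1 hp.1
  match a with
  | .inl a => exact hD.oth.nn p.1 hp.1 a _ (kap_mem _)
  | .inr true =>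
    exact hD.nnk p.1 hp.1 _ (lf_mem hc.le hk) (lf_apply_le _ _ _)
  | .inr false =>
    exact hD.nnt p.1 hp.1 _ (lf_mem hc.le hk) (lf_apply_le _ _ _)

end Vale.Agent.P268.T
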