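import Vale.Agent.P268.T.H327.Geo
import Vale.Agent.P268.T.H327.Zero
import Vale.Agent.P268.T.H545.HPAdm

/-!
# P268, topological half: the pieces of the hairpin form at its zeros
-/

set_option linter.unusedSectionVars false

namespace Vale.Agent.P268.T

open Set Filter Topology Metric

section General

variable {T P V : Type*} [TopologicalSpace T] [NormedAddCommGroup P] [NormedSpace ℝ P]
  [NormedAddCommGroup V] [InnerProductSpace ℝ V] {s : Set T} {τ₀ : T}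

/-- The front of the slab is strongly monotone. -/
theorem slab_front_inc2 {x₀ : (ℝ × P) × V} {M : T → ℝ} (cM : ContinuousWithinAt M s τ₀)
    {δ : ℝ} (hM : 1 / 2 ≤ M τ₀ * δ) {e ω : V} (he : ‖e‖ = 1) (hω : inner ℝ ω e = 0)
    {D : V →L[ℝ] (ℝ × P) × V} {us : ℝ × P} (hD : ∀ v, inner ℝ (D v).2 e = inner ℝ v e)
    (hσ : ∃ U ∈ 𝓝 x₀, ∀ y ∈ U, ∀ (v : V) (l : ℝ), y + (D v + l • (us, (0 : V))) ∈ U →
      (‖(y + (D v + l • (us, (0 : V)))).1.2‖ - |(y + (D v + l • (us, (0 : V)))).1.1|) -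
        (‖y.1.2‖ - |y.1.1|) = δ * l) {K : ℝ} (hK : 1 + 2 * (M τ₀ * δ) ≤ K) :
    ∃ U ∈ 𝓝 x₀, ∀ᶠ τ in 𝓝[s] τ₀, Inc2 (1 / 4) K
      (fun x : (ℝ × P) × V => M τ * (‖x.1.2‖ - |x.1.1|)) (fun x => inner ℝ x.2 e)
      (SheetData.rimA D (us, (0 : V)) ω e) U := by
  obtain ⟨U, hU, H⟩ := hσ
  have c0 : Tendsto (fun τ => M τ * δ) (𝓝[s] τ₀) (𝓝 (M τ₀ * δ)) :=
    cM.mul continuousWithinAt_const
  have h1 : ∀ᶠ τ in 𝓝[s] τ₀, 1 / 4 < M τ * δ := c0.eventually (lt_mem_nhds (by linarith))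
  have h2 : ∀ᶠ τ in 𝓝[s] τ₀, M τ * δ < 2 * (M τ₀ * δ) :=
    c0.eventually (gt_mem_nhds (by linarith))
  refine ⟨U, hU, ?_⟩
  filter_upwards [h1, h2] with τ e1 e2 y hy c hc
  have hv : inner ℝ (c.re • ω + c.im • e) e = c.im := by
    rw [inner_add_left, real_inner_smul_left, real_inner_smul_left, hω,
      real_inner_self_eq_norm_sq, he]
    ring
  have hB : (y + SheetData.rimA D (us, (0 : V)) ω e c).2 = y.2 + (D (c.re • ω + c.im • e)).2 := by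
    rw [SheetData.rimA_apply]
    simp
  have hb : inner ℝ (y + SheetData.rimA D (us, (0 : V)) ω e c).2 e - inner ℝ y.2 e = c.im := by
    rw [hB, inner_add_left, hD, hv]
    ring
  have hs : M τ * (‖(y + SheetData.rimA D (us, (0 : V)) ω e c).1.2‖ -
      |(y + SheetData.rimA D (us, (0 : V)) ω e c).1.1|) - M τ * (‖y.1.2‖ - |y.1.1|) =
      (M τ * δ) * c.re := by
    have h3 := H y hy (c.re • ω + c.im • e) c.re (by rw [← SheetData.rimA_apply]; exact hc)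
    rw [← SheetData.rimA_apply] at h3
    rw [← mul_sub, h3]
    ring
  have hcr := Complex.abs_re_le_norm c
  have hci := Complex.abs_im_le_norm c
  have hn0 := norm_nonneg c
  have hnc : ‖c‖ ^ 2 = c.re ^ 2 + c.im ^ 2 := by
    rw [Complex.sq_norm, Complex.normSq_apply]; ring
  show _ * _ ≤ (M τ * (‖(y + SheetData.rimA D (us, (0 : V)) ω e c).1.2‖ -
      |(y + SheetData.rimA D (us, (0 : V)) ω e c).1.1|) - M τ * (‖y.1.2‖ - |y.1.1|)) * c.re +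
      (inner ℝ (y + SheetData.rimA D (us, (0 : V)) ω e c).2 e - inner ℝ y.2 e) * c.im ∧
    |M τ * (‖(y + SheetData.rimA D (us, (0 : V)) ω e c).1.2‖ -
      |(y + SheetData.rimA D (us, (0 : V)) ω e c).1.1|) - M τ * (‖y.1.2‖ - |y.1.1|)| ≤ K * ‖c‖ ∧
    |inner ℝ (y + SheetData.rimA D (us, (0 : V)) ω e c).2 e - inner ℝ y.2 e| ≤ K * ‖c‖
  rw [hb, hs, hnc]
  refine ⟨?_, ?_, ?_⟩
  · nlinarith [sq_nonneg c.re, sq_nonneg c.im]
  · rw [abs_mul, abs_of_pos (by linarith : 0 < M τ * δ)]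
    have h4 : M τ * δ * |c.re| ≤ 2 * (M τ₀ * δ) * ‖c‖ :=
      mul_le_mul e2.le hcr (abs_nonneg _) (by linarith)
    have h5 : (1 + 2 * (M τ₀ * δ)) * ‖c‖ ≤ K * ‖c‖ := mul_le_mul_of_nonneg_right hK hn0
    linarith
  · have h4 : 1 * ‖c‖ ≤ K * ‖c‖ := mul_le_mul_of_nonneg_right (by linarith) hn0
    linarith

/-- Continuity at a point of `x ↦ v - ‖s‖ c(kap s)`. -/
theorem continuousWithinAt_kap {W : Type*} [TopologicalSpace W] {c : T → P → W}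
    (hc : ContinuousOn (fun q : T × P => c q.1 q.2) (s ×ˢ closedBall 0 1)) (hτ₀ : τ₀ ∈ s)
    {x₀ : (ℝ × P) × V} (hx₀ : x₀.1 ≠ 0) :
    ContinuousWithinAt (fun p : T × ((ℝ × P) × V) => c p.1 (kap p.2.1)) (s ×ˢ univ)
      (τ₀, x₀) := by
  have h1 : ContinuousAt (fun p : T × ((ℝ × P) × V) => (p.1, kap p.2.1)) (τ₀, x₀) := by
    refine continuousAt_fst.prodMk ?_
    have h2 : ContinuousAt (fun p : T × ((ℝ × P) × V) => p.2.1) (τ₀, x₀) := by fun_prop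
    exact ContinuousAt.comp (f := fun p : T × ((ℝ × P) × V) => p.2.1) (g := kap)
      (continuousAt_kap hx₀) h2
  have h3 := hc (τ₀, kap x₀.1) ⟨hτ₀, kap_mem _⟩
  exact ContinuousWithinAt.comp (f := fun p : T × ((ℝ × P) × V) => (p.1, kap p.2.1))
    (g := fun q : T × P => c q.1 q.2) (t := s ×ˢ closedBall 0 1) (x := (τ₀, x₀)) h3
    h1.continuousWithinAt (fun p hp => ⟨hp.1, kap_mem _⟩)

/-- A sheet in fibre form. -/
theorem sheetDir_plain {c n : T → P → V} {ρ : T → ℝ}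
    (hc : ContinuousOn (fun q : T × P => c q.1 q.2) (s ×ˢ closedBall 0 1))
    (hn : ContinuousOn (fun q : T × P => n q.1 q.2) (s ×ˢ closedBall 0 1))
    (cρ : ContinuousOn ρ s) (hτ₀ : τ₀ ∈ s) {x₀ : (ℝ × P) × V} (hx₀ : x₀.1 ≠ 0)
    (nn : ∀ᶠ p : T × ((ℝ × P) × V) in 𝓝[s ×ˢ univ] (τ₀, x₀), ‖n p.1 (kap p.2.1)‖ = 1)
    (hρ0 : 0 ≤ ρ τ₀) {us : ℝ × P} {δ : ℝ}
    (hus : ∃ U ∈ 𝓝 x₀.1, ∀ y ∈ U, ∀ l : ℝ, y + l • us ∈ U →
      kap (y + l • us) = kap y ∧ |‖y + l • us‖ - ‖y‖| ≤ δ * |l|)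
    (h1 : δ * ‖c τ₀ (kap x₀.1)‖ < 1 / 8) (h2 : δ * ρ τ₀ < 1 / 8) :
    SheetDir s τ₀ x₀ (fun τ x => x.2 - ‖x.1‖ • c τ (kap x.1)) (fun τ x => n τ (kap x.1))
      (fun τ x => ρ τ * ‖x.1‖) (ContinuousLinearMap.inr ℝ (ℝ × P) V) (us, (0 : V)) where
  cw := by
    have h3 := continuousWithinAt_kap (V := V) hc hτ₀ hx₀
    have h4 : ContinuousWithinAt (fun p : T × ((ℝ × P) × V) => ‖p.2.1‖) (s ×ˢ univ) (τ₀, x₀) := by
      fun_prop
    have h5 : ContinuousWithinAt (fun p : T × ((ℝ × P) × V) => p.2.2) (s ×ˢ univ) (τ₀, x₀) := by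
      fun_prop
    exact h5.sub (h4.smul h3)
  cn := continuousWithinAt_kap hn hτ₀ hx₀
  nn := nn
  dir := fun κ hκ => by
    obtain ⟨U, hU, H⟩ := hus
    have c1 := (continuousWithinAt_kap (V := V) hc hτ₀ hx₀).norm
    have c2 : ∀ᶠ p : T × ((ℝ × P) × V) in 𝓝[s ×ˢ univ] (τ₀, x₀),
        δ * ‖c p.1 (kap p.2.1)‖ < 1 / 8 :=
      (continuousWithinAt_const.mul c1).eventually (gt_mem_nhds h1)
    obtain ⟨U', hU', hev⟩ := ev_prod (Q := fun τ (x : (ℝ × P) × V) =>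
      δ * ‖c τ (kap x.1)‖ < 1 / 8) c2
    have c3 : ∀ᶠ τ in 𝓝[s] τ₀, δ * |ρ τ| < 1 / 8 := by
      have c0 : Tendsto (fun τ => δ * |ρ τ|) (𝓝[s] τ₀) (𝓝 (δ * |ρ τ₀|)) :=
        continuousWithinAt_const.mul (cρ τ₀ hτ₀).abs
      refine c0.eventually (gt_mem_nhds ?_)
      rwa [abs_of_nonneg hρ0]
    refine ⟨Prod.fst ⁻¹' U ∩ U', inter_mem
      (continuous_fst.continuousAt.preimage_mem_nhds hU) hU', ?_⟩
    filter_upwards [hev, c3] with τ e1 e2 y hy v l hy'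
    have f1 : (y + ((ContinuousLinearMap.inr ℝ (ℝ × P) V) v + l • (us, (0 : V)))).1 =
        y.1 + l • us := by simp
    have f2 : (y + ((ContinuousLinearMap.inr ℝ (ℝ × P) V) v + l • (us, (0 : V)))).2 =
        y.2 + v := by simp
    have hyU : y.1 + l • us ∈ U := by rw [← f1]; exact hy'.1
    obtain ⟨k1, k2⟩ := H y.1 hy.1 l hyU
    have hκv : 0 ≤ κ * ‖v‖ := by positivity
    have hl := abs_nonneg l
    have e3 := e1 y hy.2
    rw [f1, f2, k1, sub_self, norm_zero, mul_zero]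
    refine ⟨?_, ?_, by positivity⟩
    · have e4 : y.2 + v - ‖y.1 + l • us‖ • c τ (kap y.1) - (y.2 - ‖y.1‖ • c τ (kap y.1)) - v =
          -((‖y.1 + l • us‖ - ‖y.1‖) • c τ (kap y.1)) := by
        rw [sub_smul]; abel
      rw [e4, norm_neg, norm_smul, Real.norm_eq_abs]
      have e5 : |‖y.1 + l • us‖ - ‖y.1‖| * ‖c τ (kap y.1)‖ ≤ δ * |l| * ‖c τ (kap y.1)‖ :=
        mul_le_mul_of_nonneg_right k2 (norm_nonneg _)
      have e6 : δ * |l| * ‖c τ (kap y.1)‖ = |l| * (δ * ‖c τ (kap y.1)‖) := by ring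
      have e7 : |l| * (δ * ‖c τ (kap y.1)‖) ≤ |l| * (1 / 8) :=
        mul_le_mul_of_nonneg_left e3.le hl
      linarith
    · rw [← mul_sub, abs_mul]
      have e5 : |ρ τ| * |‖y.1 + l • us‖ - ‖y.1‖| ≤ |ρ τ| * (δ * |l|) :=
        mul_le_mul_of_nonneg_left k2 (abs_nonneg _)
      have e6 : |ρ τ| * (δ * |l|) = |l| * (δ * |ρ τ|) := by ring
      have e7 : |l| * (δ * |ρ τ|) ≤ |l| * (1 / 8) := mul_le_mul_of_nonneg_left e2.le hl
      linarith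

end General

end Vale.Agent.P268.T
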